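import Vale.Agent.P287D.Zc.CoSk
import Vale.Agent.P301.H450.Metric
import Vale.Agent.P301.H599.Iter
import Vale.Agent.P272.K.INT.Global

/-!
# P280Z, block Co: Chern forms of metrics on line bundles (row C1E)
-/

open scoped Manifold ContDiff Topology Matrix ComplexOrder
open Set Filter
open Vale.Agent.P272.K Vale.Agent.P299.IX Vale.Agent.P299.IX.Fock Vale.Agent.P281Z
  Vale.Agent.P281Z.Hg Vale.Agent.P281Z.Hg.G2H Vale.Agent.P280Z.Pu Vale.Agent.P285.H281.FD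
open Vale.Agent.P301.H599 (LineBundle IsMetric curvature curvature_eq curvature_ev isForm_curvature)

noncomputable section

namespace Vale.Agent.P280Z.Co

namespace C1H

section loc
variable {d : ℕ}

/-- the Lefschetz operator is linear in the matrix -/
def LwL (d : ℕ) : Matrix (Fin d) (Fin d) ℂ →ₗ[ℂ] Fo d where
  toFun w := Lw w *ᵥ ev ∅
  map_add' a b := by
    simp only [Lw, Matrix.add_apply, mul_add, add_smul, Finset.sum_add_distrib, Matrix.add_mulVec]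
  map_smul' c a := by
    simp only [Lw, Matrix.smul_apply, smul_eq_mul, Matrix.sum_mulVec, Matrix.smul_mulVec,
      Finset.smul_sum, smul_smul, RingHom.id_apply, mul_left_comm c]

theorem LwL_apply (w : Matrix (Fin d) (Fin d) ℂ) : LwL d w = Lw w *ᵥ ev ∅ := rfl

theorem pm0_ev : pm d 0 *ᵥ ev ∅ = ev ∅ := by
  funext I
  rw [pm, Matrix.mulVec_diagonal]
  by_cases h : I = ∅
  · subst h
    simp [tp]
  · simp [ev, h]

theorem pm0_d {g : Cm d → ℂ} {z : Cm d} (hg : DifferentiableAt ℝ g z) :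
    pm d 0 *ᵥ dT (fun y => g y • (ev ∅ : Fo d)) z = ∑ k, dzb k g z • (eps (ah k) *ᵥ ev ∅) := by
  have k1 := k1a f1a f1b
  rw [k1.fun_mul hg (differentiableAt_const _), k1.const, smul_zero, add_zero, epsV,
    Matrix.sum_mulVec, Ka.sum_idx, Matrix.mulVec_add, Matrix.mulVec_sum, Matrix.mulVec_sum,
    Finset.sum_eq_zero, zero_add]
  · refine Finset.sum_congr rfl fun k _ => ?_
    rw [Matrix.smul_mulVec, Matrix.mulVec_smul, Matrix.mulVec_mulVec, f1b.pm_ah,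
      ← Matrix.mulVec_mulVec, pm0_ev, Ka.dr_ah]
  · intro k _
    rw [Matrix.smul_mulVec, Matrix.mulVec_smul, Matrix.mulVec_mulVec, f1b.pm0_hl,
      Matrix.zero_mulVec, smul_zero]

theorem d_dbar {g : Cm d → ℂ} {z : Cm d} (hg : ContDiffAt ℝ ∞ g z) :
    Complex.I • dT (fun y => ∑ k, dzb k g y • (eps (ah k) *ᵥ (ev ∅ : Fo d))) z =
      Lw (Matrix.of fun j k => dz j (dzb k g) z) *ᵥ ev ∅ := by
  have h1 : ∀ k, DifferentiableAt ℝ (dzb k g) z := fun k => by
    rw [← Ka.dr_ah]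
    exact (Ka.dr_smooth hg).differentiableAt (by simp)
  have h2 : ∀ c, eps c *ᵥ Dv c (fun y => ∑ k, dzb k g y • (eps (ah k) *ᵥ (ev ∅ : Fo d))) z =
      ∑ k, dr c (dzb k g) z • ((eps c * eps (ah k)) *ᵥ ev ∅) := fun c => by
    rw [Ka.Dv_sum _ fun k _ => (h1 k).smul_const _, Matrix.mulVec_sum]
    refine Finset.sum_congr rfl fun k _ => ?_
    rw [Ka.Dv_fmul (h1 k) (differentiableAt_const _), Ka.Dv_const, smul_zero, add_zero,
      Matrix.mulVec_smul, Matrix.mulVec_mulVec]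
  rw [dT, Ka.sum_idx]
  simp only [h2]
  rw [Ka.anti (F := fun j k => dr (ah j) (dzb k g) z • ((eps (ah j) * eps (ah k)) *ᵥ ev ∅)),
    add_zero]
  · simp only [Lw, Matrix.sum_mulVec, Matrix.smul_mulVec, Finset.smul_sum, smul_smul,
      Ka.dr_hl, Matrix.of_apply]
  · intro j k
    rw [eps_eps, Matrix.neg_mulVec, smul_neg, ← Ka.dr_ah k, ← Ka.dr_ah j, Ka.dr_comm _ _ hg]

theorem par_Lw (w : Matrix (Fin d) (Fin d) ℂ) : par *ᵥ (Lw w *ᵥ ev ∅) = Lw w *ᵥ ev ∅ := by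
  simp only [Lw, Matrix.sum_mulVec, Matrix.mulVec_sum, Matrix.smul_mulVec, Matrix.mulVec_smul,
    ← Matrix.mulVec_mulVec, par_eps', par_ev, Matrix.mulVec_neg, neg_neg]

theorem dg_Lw' (w : Matrix (Fin d) (Fin d) ℂ) : dg (1 + 1) *ᵥ (Lw w *ᵥ ev ∅) = Lw w *ᵥ ev ∅ := by
  rw [Matrix.mulVec_mulVec, dg_Lw, ← Matrix.mulVec_mulVec, dg_ev]

end loc

variable {n : ℕ} {V : Mf n}

/-- real closed `(1,1)` forms in terms of matrices -/
theorem ex_w {w : Rw n V.X (Matrix (Fin n) (Fin n) ℂ)} (hc : INT.IsClosedForm w)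
    (hh : ∀ e x, At e x → (w e (e x)).IsHermitian) : ∃ u : Zc V, IsW w (fm u) := by
  have k := k1a f1a f1b
  have f2 := f2b f1a f1b f2a
  obtain ⟨v, hw⟩ : ∃ v : Om V, IsW w v := (G1H.mkf (fun e z => Lw (w e z) *ᵥ ev ∅) (fun e x h =>
    G1H.cd_mulVec (G1H.mc_Lw (hc.smooth e x h)) contDiffAt_const) fun e e' x h h' => by
      rw [(gg1 n V.X).jt_eq e e' x h h', Matrix.mulVec_mulVec, f2.L_blk, ← Matrix.mulVec_mulVec,
        lam_ev_empty, hc.form e e' x h h']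
      rfl).imp fun _ hv e x h => hv e h.1 _ (e.map_source h.2)
  refine ⟨mkZ v ⟨ext fun e x h => ?_, ext fun e x h => ?_, ext fun e x h => ?_⟩, hw⟩
  · rw [val_d _ h, k.congr (v := fun z => Lw (w e z) *ᵥ ev ∅)
      (ev_at h (.of_forall fun y => hw e y)), val_zero]
    exact k.om (hc.smooth e x h) (ev_at h (.of_forall fun y => hh e y))
      fun i j l => hc.closed e x h l i j
  · rw [val_sg _ h, hw e x h, par_Lw]
  · rw [val_cj _ h, hw e x h, f2.cjv_L _ _ (hh e x h), f1b.cjv_ev]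

/-- the line bundle given by `L` -/
def toLB (L : Bd V.X) (h : IsLB n L) : LineBundle n V.X L.ι where
  U := L.U
  isOpen := h.isOpen
  cover := h.cover
  g := L.g
  holo i j e x hx hi hj := (h.holo i j e x hx hi hj).analyticAt
  ne_zero := h.ne_zero
  cocycle := h.cocycle

variable {L : Bd V.X} {ψ ψ' : L.ι → V.X → ℝ} {u v : Om V}

theorem two (h : IsMet n L ψ) {a : L.ι} {e : Chart n V.X} {x : V.X} (he : At e x)
    (ha : x ∈ L.U a) : ContDiffAt ℝ 2 (fun z => ψ a (e.symm z)) (e x) :=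
  (h.smooth a e x he ha).of_le INT.two_le_inf

theorem ex_c1 (hL : IsLB n L) (hψ : IsMet n L ψ) : ∃ u : Zc V, IsC1 L ψ (fm u) := by
  have hρ : IsMetric (toLB L hL) ψ := ⟨hψ.smooth, hψ.change⟩
  have h1 : ∀ e x m, At e x → x ∈ L.U m → ∀ p q,
      (fun z => curvature (toLB L hL) ψ e z p q) =ᶠ[𝓝 (e x)]
      fun z => cHess (fun z => ψ m (e.symm z)) z p q := fun e x m h hm p q =>
    (curvature_ev hρ h hm).mono fun z hz => congrFun (congrFun hz p) q
  obtain ⟨u, hu⟩ := ex_w (V := V) (w := curvature (toLB L hL) ψ)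
    ⟨fun e x h i j => (hL.cover x).elim fun m hm =>
      (INT.smooth_cHess (hψ.smooth m e x h hm) i j).congr_of_eventuallyEq (h1 e x m h hm i j),
      isForm_curvature hρ, fun e x h i k l => (hL.cover x).elim fun m hm => by
        rw [INT.dz_congr (h1 e x m h hm k l), INT.dz_congr (h1 e x m h hm i l)]
        exact INT.cHess_closed (hψ.smooth m e x h hm) i k l⟩
    fun e x h => (hL.cover x).elim fun m hm => by
      rw [curvature_eq hρ h hm]
      exact cHess_isHermitian (two hψ h hm)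
  refine ⟨(2 * Real.pi)⁻¹ • u, hψ, fun a e x h ha => ?_⟩
  rw [map_smul, rsmul, val_smul, hu e x h, curvature_eq hρ h ha, Complex.ofReal_inv]
  rfl

theorem dg_c1 (hL : IsLB n L) (h : IsC1 L ψ u) : dgO (1 + 1) u = u := ext fun e x he => by
  obtain ⟨a, ha⟩ := hL.cover x
  rw [val_dg _ _ he, h.2 a e x he ha, Matrix.mulVec_smul, dg_Lw']

theorem c1_uniq (hL : IsLB n L) (h : IsC1 L ψ u) (k : IsC1 L ψ v) : u = v := ext fun e x he => by
  obtain ⟨a, ha⟩ := hL.cover x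
  rw [h.2 a e x he ha, k.2 a e x he ha]

end C1H

open C1H

variable {n : ℕ} {V : Mf n}

/-- the form `i ∂ ∂̄ φ` is exact -/
theorem exact_ddc {φ : V.X → ℝ} {u : Om V} (hφ : SmoothFn (n := n) φ)
    (hu : IsW (fun e z => cHess (fun y => φ (e.symm y)) z) u) : Ex u := by
  have k := k1a f1a f1b
  obtain ⟨T, hT⟩ := (gg1 n V.X).op _ ((gg1 n V.X).fn φ hφ)
  have hg : ∀ e x, At e x → ContDiffAt ℝ ∞ (fun z => (φ (e.symm z) : ℂ)) (e x) := fun e x h =>
    Complex.ofRealCLM.contDiff.contDiffAt.comp _ (hφ e x h)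
  obtain ⟨t, h1⟩ : ∃ t : Om V, ∀ e x, At e x → val t e (e x) = (φ (e.symm (e x)) : ℂ) • ev ∅ :=
    ⟨T (1 : Om V), fun e x h => (hT _ e x h).trans (by
      rw [show vl (d := n) (M := V.X) (1 : Om V) e (e x) = _ from val_one h, Matrix.smul_mulVec,
        Matrix.one_mulVec])⟩
  have h2 : ∀ e x, At e x → val (pmO 0 (dO t)) e (e x) =
      ∑ k, dzb k (fun z => (φ (e.symm z) : ℂ)) (e x) • (eps (ah k) *ᵥ ev ∅) := fun e x h => by
    rw [val_pm _ _ h, val_d _ h, k.congr (v := fun z => (φ (e.symm z) : ℂ) • ev ∅)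
      (ev_at h (.of_forall fun y => h1 e y)), pm0_d ((hg e x h).differentiableAt (by simp))]
  refine ⟨Complex.I • pmO 0 (dO t), ext fun e x h => ?_⟩
  rw [map_smul, val_smul, val_d _ h, k.congr
    (v := fun y => ∑ k, dzb k (fun z => (φ (e.symm z) : ℂ)) y • (eps (ah k) *ᵥ ev ∅))
    (ev_at h (.of_forall fun y => h2 e y)), d_dbar (hg e x h), hu e x h]
  rfl

/-- the Chern forms of two metrics are cohomologous -/
theorem C1H.ex_sub {L : Bd V.X} {ψ ψ' : L.ι → V.X → ℝ} {u v : Om V} (hL : IsLB n L)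
    (h : IsC1 L ψ u) (k : IsC1 L ψ' v) : Ex (u - v) := by
  choose c hc using hL.cover
  have h1 : ∀ (e : Chart n V.X) x, At e x → (fun z => ψ (c (e.symm z)) (e.symm z) -
      ψ' (c (e.symm z)) (e.symm z)) =ᶠ[𝓝 (e x)]
      fun z => ψ (c x) (e.symm z) - ψ' (c x) (e.symm z) := fun e x he => by
    filter_upwards [G1H.ev_src he ((hL.isOpen _).mem_nhds (hc x))] with z hz
    rw [h.1.change _ _ _ (hc _) hz, k.1.change _ _ _ (hc _) hz, add_sub_add_right_eq_sub]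
  have h0 : ((2 * Real.pi : ℝ) : ℂ) ≠ 0 := Complex.ofReal_ne_zero.2 Real.two_pi_pos.ne'
  obtain ⟨β, hβ⟩ := exact_ddc (φ := fun x => ψ (c x) x - ψ' (c x) x)
    (u := ((2 * Real.pi : ℝ) : ℂ) • (u - v)) (fun e x he =>
      ((h.1.smooth _ e x he (hc x)).sub (k.1.smooth _ e x he (hc x))).congr_of_eventuallyEq
        (h1 e x he)) fun e x he => by
    rw [val_smul, val_sub, h.2 _ e x he (hc x), k.2 _ e x he (hc x), ← smul_sub, smul_inv_smul₀ h0,
      ← LwL_apply, ← LwL_apply, ← map_sub, ← cHess_sub (two h.1 he (hc x)) (two k.1 he (hc x)),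
      ← cHess_congr (h1 e x he)]
    rfl
  exact ⟨((2 * Real.pi : ℝ) : ℂ)⁻¹ • β, by rw [map_smul, hβ, inv_smul_smul₀ h0]⟩

/-- row C1E -/
theorem c1e : C1E := fun V L hL => by
  refine ⟨(P301.H450.exists_metric (toLB L hL)).imp fun _ h => ⟨h.smooth, h.change⟩,
    fun ψ hψ => ?_⟩
  obtain ⟨u, hu⟩ := ex_c1 hL hψ
  have h : ∃ u : Zc V, ∃ ψ, IsC1 L ψ (fm u) := ⟨u, ψ, hu⟩
  refine ⟨u, hu, ?_⟩
  obtain ⟨ψ', k⟩ := h.choose_spec
  rw [c1H, dif_pos h, mk_eq.2 (ex_sub hL k hu)]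
  exact pr_mk 1 (dg_c1 hL hu).symm

end Vale.Agent.P280Z.Co
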