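import Vale.Agent.P287D.Zc.CoPsB
import Vale.Agent.P287D.Zc.CoBezA
import Vale.Agent.P287D.Zc.CoC1e
import Vale.Agent.P299.H954.Zero
import Vale.Agent.P272.K.QN.H527.Tools

/-!
# P280Z, block Co: positivity and types (row PO)
-/

open scoped Manifold ContDiff Topology Matrix ComplexOrder
open Set Filter
open Vale.Agent.P272.K Vale.Agent.P299.IX Vale.Agent.P299.IX.Fock Vale.Agent.P281Z
  Vale.Agent.P281Z.Hg Vale.Agent.P280Z.Pu Vale.Agent.P272.K.INT Vale.Agent.P280Z.Co.PuhH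
open Vale.Agent.P272.K.QN (jm jm_mulVec)
open Vale.Agent.P301Z.Rot (m2 m2_cd closed_m2 dg_om)
open Vale.Agent.P281Z.Hg.Pb1H (ca)
open Vale.Agent.P280Z.Co.Bez (den den_is intO_re)

noncomputable section

namespace Vale.Agent.P280Z.Co

namespace Ps

variable {n m : ℕ} {V : Mf n} {W : Mf m} {f : V.X → W.X} {u v : Om V} {e e' : Chart n V.X}
  {x : V.X} {N N' : V.X → Submodule ℂ (Cm n)}

theorem val_ch (u : Om V) (h : At e x) (h' : At e' x) :
    val u e (e x) = pl (jacM e e' x) *ᵥ val u e' (e' x) := by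
  refine ((vl_isF u).ch e e' x h h').trans ?_
  rw [jt, jc_eq ((transition_contDiffAt h h').differentiableAt (by simp))]
  rfl

theorem val_pb (hf : HolM n m f) (u : Om W) {c : Chart m W.X} (h : At e x) (h' : At c (f x)) :
    val (pb hf u) e (e x) = pl (jm (fun z => c (f (e.symm z))) (e x)) *ᵥ val u c (c (f x)) := by
  refine (pb_is hf u e c x h h').trans ?_
  rw [jc_eq (((hl_of hf).hol e c x h h').differentiableAt (by simp))]
  rfl

theorem jm_Df (hf : HolM n m f) (x : V.X) : (jm (fun z => chartAt (Cm m) (f x)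
    (f ((chartAt (Cm n) x).symm z))) (chartAt (Cm n) x x)).mulVecLin = Df n m f x :=
  LinearMap.ext fun v => funext fun p =>
    (jm_mulVec (((hl_of hf).hol _ _ x (ca _) (ca _)).differentiableAt (by simp)) v p).symm

/-- the matrices of the component of type `(1,1)` -/
def mw (u : Om V) : Rw n V.X (Matrix (Fin n) (Fin n) ℂ) := fun e z => mat (val u e z)

theorem mw_eq {w : Matrix (Fin n) (Fin n) ℂ} {z : Cm n} (h : val u e z = Lw w *ᵥ ev ∅) :
    mw u e z = w := by rw [mw, h, mat_om]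

theorem om_ch {w : Matrix (Fin n) (Fin n) ℂ} (h : At e x) (h' : At e' x)
    (k : val u e' (e' x) = Lw w *ᵥ ev ∅) : val u e (e x) = Lw (rs (jacM e e' x) w) *ᵥ ev ∅ := by
  rw [val_ch u h h', k, pl_Lw, pl_ev]

theorem spF_iff : SpF u N ↔ ∀ x, ∃ w, val u (chartAt (Cm n) x) (chartAt (Cm n) x x) =
    Lw w *ᵥ ev ∅ ∧ SpP w (N x) := by
  refine ⟨fun ⟨w, h1, h2, h3⟩ x => ⟨_, h1 _ x (ca x), h2 _ x (ca x), h3 x⟩, fun h => ?_⟩
  choose w h1 h2 using h
  have h3 := fun e x he => mw_eq (om_ch (e := e) he (ca x) (h1 x))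
  refine ⟨mw u, fun e x he => ?_, fun e x he => ?_, fun x => ?_⟩
  · rw [h3 e x he]
    exact om_ch he (ca x) (h1 x)
  · rw [h3 e x he]
    exact rs_psd _ (h2 x).1
  · rw [mw_eq (h1 x)]
    exact (h2 x).2

theorem isW_mw {w : Rw n V.X (Matrix (Fin n) (Fin n) ℂ)} (h : IsW w u) : IsW (mw u) u :=
  fun e x he => by rw [mw_eq (h e x he), h e x he]

theorem mw_sm (u : Om V) (h : At e x) (i j : Fin n) :
    ContDiffAt ℝ ∞ (fun z => mw u e z i j) (e x) :=
  contDiffAt_const.mul (m2_cd ((vl_isF u).sm e x h) _ _)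

theorem mw_form (h : IsW (mw u) u) : IsForm (mw u) := fun _ e' x he he' =>
  mw_eq (om_ch he he' (h e' x he'))

theorem mw_closed (h : IsW (mw u) u) (hd : dO u = 0) (he : At e x) (i j k : Fin n) :
    dz k (fun z => mw u e z i j) (e x) = dz i (fun z => mw u e z k j) (e x) := by
  have h1 := closed_m2 (G2H.dif u he) ((val_d u he).symm.trans (by rw [hd, val_zero]))
    (hl k) (hl i) (ah j)
  have h2 := fun a b => (m2_cd ((vl_isF u).sm e x he) a b).differentiableAt (by simp)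
  rw [Ka.dr_congr (c := ah j) (g := fun _ => 0) (G2H.ev_at he (.of_forall fun y hy =>
    m2_hh (u := val u e (e y)) (by rw [h e y hy, pm_om]) k i)), Ka.dr_const, add_zero,
    sub_eq_zero, Ka.dr_hl, Ka.dr_hl] at h1
  exact (INT.dz_const_mul _ (h2 _ _)).trans
    ((congrArg _ h1).trans (INT.dz_const_mul _ (h2 _ _)).symm)

theorem mw_pos (h : SpF u fun _ => ⊥) (he : At e x) : (mw u e (e x)).PosDef := by
  obtain ⟨w, h1, h2⟩ := spF_iff.1 h x
  have h3 := h2.rs (jacM e (chartAt (Cm n) x) x)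
  rw [Submodule.comap_bot, LinearMap.ker_eq_bot.2 (Matrix.mulVec_injective_iff_isUnit.2
    ((Matrix.isUnit_iff_isUnit_det _).2 (jacM_isUnit he (ca x))))] at h3
  rw [mw_eq (om_ch he (ca x) h1)]
  exact h3.posDef

theorem tyF_iff : TyF u ↔ ∀ e x, At e x → TyP (val u e (e x)) :=
  ⟨fun h e x he k => by rw [← val_dg _ _ he, ← val_pm _ _ he, h k],
    fun h k => ext fun e x he => by rw [val_pm _ _ he, val_dg _ _ he, h e x he k]⟩

theorem tyF_one : TyF (1 : Om V) := tyF_iff.2 fun e x he => by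
  rw [val_one he]
  exact tyP_ev

theorem tyF_smul (c : ℂ) (h : TyF u) : TyF (c • u) := fun k => by rw [map_smul, map_smul, h k]

theorem tyF_pb (hf : HolM n m f) {u : Om W} (h : TyF u) : TyF (pb hf u) := fun k => by
  rw [← pb_dg, ← pb_pmO, h k]

theorem tyF_dg (h : TyF u) (k : ℕ) : TyF (dgO (k + k) u) := fun j => by
  have h1 : dgO (j + j) (dgO (k + k) u) = _ := LinearMap.congr_fun ((cx_OK V).dg_mul _ _) u
  rw [h1]
  split_ifs with e
  · rw [show k = j by omega]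
    exact h j
  · exact map_zero _

theorem tyF_w {w : Rw n V.X (Matrix (Fin n) (Fin n) ℂ)} (h : IsW w u) : TyF u :=
  tyF_iff.2 fun e x he => by
    rw [h e x he]
    exact tyP_om _

theorem par_fm (a : Zc V) (he : At e x) : par *ᵥ val (fm a) e (e x) = val (fm a) e (e x) := by
  rw [← val_sg _ he, sg_fm]

theorem tyF_mul {a b : Zc V} (ha : TyF (fm a)) (hb : TyF (fm b)) : TyF (fm (a * b)) :=
  tyF_iff.2 fun e x he => by
    rw [map_mul, val_mul _ _ he]
    exact (tyF_iff.1 ha e x he).wg (par_fm a he) (tyF_iff.1 hb e x he) (par_fm b he)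

variable (V) in
/-- closed real sums of `(k,k)` forms -/
def TZ : Subalgebra ℝ (Zc V) where
  carrier := {a | TyF (fm a)}
  mul_mem' := tyF_mul
  add_mem' ha hb k := by rw [map_add, map_add, map_add, ha k, hb k]
  algebraMap_mem' c := by
    rw [Algebra.algebraMap_eq_smul_one, mem_ofPred_eq, map_smul, map_one]
    exact tyF_smul _ tyF_one

theorem ty_ex {a : HH V} (h : a ∈ ct.Ty V) : ∃ u, mk u = a ∧ TyF (fm u) := by
  have k : Algebra.adjoin ℝ {a | ∃ u, mk u = a ∧ TyF (fm u)} ≤ (TZ V).map mk :=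
    Algebra.adjoin_le fun _ ⟨u, h1, h2⟩ => ⟨u, h2, h1⟩
  obtain ⟨u, h1, h2⟩ := k h
  exact ⟨u, h2, h1⟩

theorem ty_mk {a : Zc V} (h : TyF (fm a)) : mk a ∈ ct.Ty V :=
  Algebra.subset_adjoin (A := HH V) (s := {a | ∃ u, mk u = a ∧ TyF (fm u)}) ⟨a, rfl, h⟩

/-- the component of degree two of a sum of `(k,k)` forms -/
theorem isW_dg (h : TyF u) : IsW (mw (dgO 2 u)) (dgO 2 u) := fun e x he => by
  rw [mw, val_dg _ _ he]
  exact (tyF_iff.1 h e x he).om

theorem mw_herm (a : Zc V) (he : At e x) : (mw (fm a) e (e x)).IsHermitian :=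
  mat_herm (by rw [← val_cj _ he, cj_fm])

theorem den_eq (u : Om V) (he : At e x) : den u e (e x) = (top (val u e (e x))).re := by
  rw [den, val_one he, AlgH.Bq_ev, Finset.compl_empty, AlgH.sI, Finset.prod_empty, mul_one, top]

theorem intO_nonneg (h : ∀ e x, At e x → WpP (val u e (e x))) : 0 ≤ (intO u).re := by
  rw [intO_re]
  exact intX_nonneg fun e x he => den_eq u he ▸ (Complex.le_def.1 (h e x he).top).1

theorem intO_pos (h : ∀ e x, At e x → WpP (val u e (e x))) (he : At e x)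
    (k : 0 < top (val u e (e x))) : 0 < (intO u).re := by
  rw [intO_re]
  refine P299.H954.intX_pos_of_pos (den_is u) (x := x)
    (fun e x he => den_eq u he ▸ (Complex.le_def.1 (h e x he).top).1) fun e' he' => ?_
  rw [(den_is u).change e' e x he' he, den_eq u he]
  exact mul_pos (Complex.lt_def.1 k).1 (pow_pos (norm_pos_iff.2 (jacM_det_ne_zero he' he)) 2)

theorem val_w {w : Matrix (Fin n) (Fin n) ℂ} (he : At e x) (h : val u e (e x) = Lw w *ᵥ ev ∅)
    (j : ℕ) (t : Om V) : val (u ^ j * t) e (e x) = Lw w ^ j *ᵥ val t e (e x) := by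
  induction j with
  | zero => rw [pow_zero, pow_zero, one_mul, Matrix.one_mulVec]
  | succ j ih =>
    rw [pow_succ', pow_succ', mul_assoc, val_mul _ _ he, ih, h, ← f2T.L_wg, Matrix.mulVec_mulVec]

theorem val_ww {w w' : Matrix (Fin n) (Fin n) ℂ} (he : At e x) (h : val u e (e x) = Lw w *ᵥ ev ∅)
    (h' : val v e (e x) = Lw w' *ᵥ ev ∅) (j k : ℕ) :
    val (u ^ j * v ^ k) e (e x) = Lw w ^ j *ᵥ (Lw w' ^ k *ᵥ ev ∅) := by
  rw [val_w he h, ← mul_one (v ^ k), val_w he h', val_one he]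

theorem dg_mk {a : Zc V} (h : ct.Dg V 1 (mk a)) : mk (dgZ 2 a) = mk a := (prH_mk 1 a).symm.trans h

end Ps

open Ps

/-- a closed positive `(1,1)` form is a Kähler metric -/
theorem Ps.kw {n : ℕ} {V : Mf n} (u : Zc V) (h : SpF (fm u) fun _ => ⊥) :
    ∃ w, IsKahler w ∧ IsW w (fm u) :=
  have k := isW_mw h.choose_spec.1
  ⟨mw (fm u), ⟨⟨fun _ _ => mw_sm _, fun _ _ => mw_pos h, mw_form k⟩,
    fun _ _ => mw_closed k (d_fm u)⟩, k⟩

/-- **row PO**, positivity -/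
theorem po_ct : ct.Po where
  deg := by
    rintro n V _ N ⟨u, rfl, w, h, -⟩
    exact pr_mk 1 (ext fun e x he => by rw [val_dg _ _ he, h e x he, dg_om])
  mono := fun ⟨u, h, w, h1, h2, h3⟩ k => ⟨u, h, w, h1, h2, fun x v hv => k x (h3 x v hv)⟩
  zero V := ⟨0, map_zero _, spF_iff.2 fun x => ⟨0, by
    rw [map_zero, val_zero, Lw_zero, Matrix.zero_mulVec], .zero, fun _ _ => trivial⟩⟩
  add := by
    rintro n V _ N _ N' ⟨u, rfl, h⟩ ⟨v, rfl, k⟩
    refine ⟨u + v, map_add _ _ _, spF_iff.2 fun x => ?_⟩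
    obtain ⟨w, h1, h2⟩ := spF_iff.1 h x
    obtain ⟨w', k1, k2⟩ := spF_iff.1 k x
    refine ⟨w + w', by rw [map_add, val_add, h1, k1, Lw_add, Matrix.add_mulVec], h2.1.add k2.1,
      fun t ht => ?_⟩
    have h3 := h2.1.dotProduct_mulVec_nonneg (star t)
    have k3 := k2.1.dotProduct_mulVec_nonneg (star t)
    rw [star_star] at h3 k3
    rw [Matrix.add_mulVec, dotProduct_add, add_eq_zero_iff_of_nonneg h3 k3] at ht
    exact ⟨h2.2 t ht.1, k2.2 t ht.2⟩
  smul := by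
    rintro n V _ N c hc ⟨u, rfl, h⟩
    refine ⟨c • u, map_smul _ _ _, spF_iff.2 fun x => ?_⟩
    obtain ⟨w, h1, h2⟩ := spF_iff.1 h x
    refine ⟨(c : ℂ) • w, by rw [map_smul, rsmul, val_smul, h1, Lw_smul, Matrix.smul_mulVec],
      h2.1.smul (Complex.zero_le_real.2 hc.le), fun t ht => h2.2 t ?_⟩
    rw [Matrix.smul_mulVec, dotProduct_smul, smul_eq_zero] at ht
    exact ht.resolve_left (Complex.ofReal_ne_zero.2 hc.ne')
  pull := by
    rintro n m V W f hf _ N ⟨u, rfl, h⟩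
    refine ⟨pbZ hf u, rfl, spF_iff.2 fun x => ?_⟩
    obtain ⟨w, h1, h2⟩ := spF_iff.1 h (f x)
    exact ⟨_, by rw [fm_pbZ, val_pb hf _ (ca x) (ca _), h1, pl_Lw, pl_ev],
      jm_Df hf x ▸ h2.rs _⟩
  opn := by
    rintro n V _ ⟨u, rfl, h⟩ a ha hd
    obtain ⟨v, rfl, hv⟩ := ty_ex ha
    obtain ⟨w, h1, h2⟩ := kw u h
    have h3 : IsW (mw (fm (dgZ 2 v))) (fm (dgZ 2 v)) := isW_dg hv
    obtain ⟨C, hC, h4⟩ := QN.exists_comparison_form (b := fun e z => -mw (fm (dgZ 2 v)) e z)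
      h1.toIsHermitian (fun _ _ he i j => (mw_sm _ he i j).neg) (fun _ _ he => (mw_herm _ he).neg)
      fun e e' x he he' => by
        rw [Matrix.mul_neg, Matrix.neg_mul]
        exact congrArg Neg.neg (mw_form h3 e e' x he he')
    refine ⟨C + 1, by positivity, (C + 1) • u + dgZ 2 v, by rw [map_add, map_smul, dg_mk hd]; rfl,
      spF_iff.2 fun x => ⟨_, ?_, spP_of ((h1.posDef _ x (ca x)).add_posSemidef (h4 _ x (ca x)))⟩⟩
    rw [map_add, map_smul, val_add, rsmul, val_smul, h2 _ x (ca x), h3 _ x (ca x), sub_neg_eq_add,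
      Lw_add, Lw_add, Lw_smul, Matrix.add_mulVec, Matrix.add_mulVec, Matrix.smul_mulVec,
      Complex.ofReal_add, Complex.ofReal_one, add_smul, one_smul, add_comm (_ • _), add_assoc]
  kah V := by
    refine ⟨fun ⟨w, h⟩ => ?_, fun ⟨_, u, _, h⟩ => (kw u h).imp fun _ k => k.1⟩
    obtain ⟨u, hu⟩ := C1H.ex_w (V := V) ⟨h.smooth, h.change, fun e x he i k l =>
      h.closed e x he k l i⟩ fun e x he => (h.posDef e x he).isHermitian
    exact ⟨_, u, rfl, spF_iff.2 fun x => ⟨_, hu _ x (ca x), spP_of (h.posDef _ x (ca x))⟩⟩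
  pos := by
    rintro n V _ N _ N' j k x ⟨u, rfl, h⟩ ⟨v, rfl, h'⟩ e1 e2 e3
    change 0 < intH V (mk u ^ j * mk v ^ k)
    rw [← map_pow, ← map_pow, ← map_mul, intH_mk, map_mul, map_pow, map_pow]
    obtain ⟨a, a1, a2⟩ := spF_iff.1 h x
    obtain ⟨b, b1, b2⟩ := spF_iff.1 h' x
    obtain ⟨w, h1, h2, -⟩ := h
    obtain ⟨w', k1, k2, -⟩ := h'
    refine intO_pos (fun e y he => ?_) (ca x) ?_
    · rw [val_ww he (h1 e y he) (k1 e y he)]
      exact (wp_ev.pow (k2 e y he) k).pow (h2 e y he) j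
    · rw [val_ww (ca x) a1 b1]
      exact top_pos n a b _ j k a2 (e2 ▸ b2) e1 e3
  wp_one V := ⟨1, map_one _, by rw [map_one]; exact ⟨tyF_one, fun k e x he J => by
    rw [val_one he]
    exact wp_ev k J⟩⟩
  wp_mul := by
    rintro n V _ _ ⟨u, rfl, w, h1, h2, -⟩ ⟨v, rfl, k1, k2⟩
    refine ⟨u * v, map_mul _ _ _, tyF_mul (tyF_w h1) k1, fun k e x he => ?_⟩
    rw [map_mul, val_mul _ _ he, h1 e x he, ← f2T.L_wg]
    exact WpP.Lw (fun k => k2 k e x he) (h2 e x he) k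
  wp_pull := by
    rintro n m V W f hf _ ⟨u, rfl, h1, h2⟩
    refine ⟨pbZ hf u, rfl, tyF_pb hf h1, fun k e x he => ?_⟩
    rw [fm_pbZ, val_pb hf _ he (ca _)]
    exact WpP.pl (fun k => h2 k _ _ (ca _)) _ k
  wp_push := by
    rintro n m V W f hf _ ⟨u, rfl, h1, h2⟩
    refine ⟨pushZ hf u, (push_mk hf u).symm, tyF_push hf h1, fun k e y he => ?_⟩
    rw [fm_pushZ]
    rcases sub_dim hf with h | ⟨d, rfl⟩
    · rw [om_zero h (fm u), map_zero, val_zero]
      exact wp_zero k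
    · obtain ⟨T, hT, h⟩ := push_rep hf rfl
      rw [h]
      exact wp_of hf.hol hf.sbm hT (fun e x he k => h2 k e x he) he k
  wp_nn := by
    rintro n V _ ⟨u, rfl, h1, h2⟩ hd
    refine ⟨dgZ 2 u, dg_mk hd, spF_iff.2 fun x => ⟨_, isW_dg h1 _ x (ca x), ?_, fun _ _ => trivial⟩⟩
    exact psd_of (fun k => h2 k _ x (ca x)) ((val_dg _ _ (ca x)).symm.trans (isW_dg h1 _ x (ca x)))
      (mw_herm (dgZ 2 u) (ca x))
  wp_int := by
    rintro n V _ ⟨u, rfl, -, h⟩
    exact intO_nonneg fun e x he k => h k e x he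

theorem po_of (_ : C1E) : ct.Po := po_ct

/-- **row PO**, types -/
theorem tp_of : ct.Tp where
  pr k a h := by
    obtain ⟨u, rfl, hu⟩ := ty_ex h
    exact (prH_mk k u).symm ▸ ty_mk (tyF_dg hu k)
  pull hf a h := by
    obtain ⟨u, rfl, hu⟩ := ty_ex h
    exact ty_mk (a := pbZ hf u) (tyF_pb hf hu)
  push hf a h := by
    obtain ⟨u, rfl, hu⟩ := ty_ex h
    exact (push_mk hf u).symm ▸ ty_mk (tyF_push hf hu)
  c1 V L hL := by
    obtain ⟨ψ, h⟩ := (c1e V L hL).1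
    obtain ⟨u, h1, h2⟩ := (c1e V L hL).2 ψ h
    refine (congrArg (· ∈ ct.Ty V) h2).mpr (ty_mk (tyF_iff.2 fun e x he k => ?_))
    obtain ⟨a, ha⟩ := hL.cover x
    rw [h1.2 a e x he ha, Matrix.mulVec_smul, Matrix.mulVec_smul, tyP_om]
  wp := fun ⟨u, h, k⟩ => h ▸ ty_mk k.1

end Vale.Agent.P280Z.Co
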