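import Vale.Agent.P287D.Zc.CoOm

/-!
# P280Z: the even real de Rham rings, the concrete theory `ct`
-/

open scoped Manifold ContDiff Topology Matrix ComplexOrder
open Set Filter
open Vale.Agent.P272.K Vale.Agent.P272.K.C2 Vale.Agent.P299.IX Vale.Agent.P299.IX.Fock
  Vale.Agent.P281Z Vale.Agent.P281Z.Hg Vale.Agent.P281Z.Hg.G2H Vale.Agent.P280Z.Pu
  Vale.Agent.P285.H281.FD
open Vale.Agent.P231.ChW (GDA)

noncomputable section

namespace Vale.Agent.P280Z.Co

variable {n m : ℕ}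

theorem d_one (V : Mf n) : dO (1 : Om V) = 0 := P231.ChW.d_one

theorem cj_rsmul {V : Mf n} (c : ℝ) (u : Om V) : cjO (c • u) = c • cjO u := by
  rw [rsmul, rsmul, cj_smul, Complex.star_def, Complex.conj_ofReal]

/-- closed even real forms -/
def ZS (V : Mf n) : Subalgebra ℝ (Om V) where
  carrier := {u | dO u = 0 ∧ sgO u = u ∧ cjO u = u}
  mul_mem' := fun {a b} ha hb => ⟨by rw [d_mul, ha.1, hb.1, zero_mul, mul_zero, add_zero],
    by rw [map_mul, ha.2.1, hb.2.1], by rw [map_mul, ha.2.2, hb.2.2]⟩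
  add_mem' := fun {a b} ha hb => ⟨by rw [map_add, ha.1, hb.1, add_zero],
    by rw [map_add, ha.2.1, hb.2.1], by rw [map_add, ha.2.2, hb.2.2]⟩
  algebraMap_mem' c := by
    rw [Algebra.algebraMap_eq_smul_one]
    exact ⟨by rw [rsmul, map_smul, d_one, smul_zero], by rw [rsmul, map_smul, map_one],
      by rw [cj_rsmul, map_one]⟩

/-- the ring of closed even real forms -/
def Zc (V : Mf n) : Type := ZS V

instance (V : Mf n) : CommRing (Zc V) :=
  { (inferInstanceAs (Ring (ZS V)) : Ring (Zc V)) with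
    mul_comm := fun a b => Subtype.ext (GDA.even a.1 b.1 a.2.2.1) }

instance (V : Mf n) : Algebra ℝ (Zc V) := inferInstanceAs (Algebra ℝ (ZS V))

variable {V : Mf n} {W : Mf m}

/-- the underlying form -/
def fm : Zc V →ₐ[ℝ] Om V := (ZS V).val

/-- the closed even real form with the given underlying form -/
def mkZ (u : Om V) (h : u ∈ ZS V) : Zc V := (⟨u, h⟩ : ZS V)

theorem fm_mkZ (u : Om V) (h : u ∈ ZS V) : fm (mkZ u h) = u := rfl

theorem fm_mem (u : Zc V) : fm u ∈ ZS V := u.2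

theorem fm_inj : Function.Injective (fm (V := V)) := Subtype.val_injective

theorem d_fm (u : Zc V) : dO (fm u) = 0 := u.2.1

theorem sg_fm (u : Zc V) : sgO (fm u) = fm u := u.2.2.1

theorem cj_fm (u : Zc V) : cjO (fm u) = fm u := u.2.2.2

/-- exact forms -/
def Ex (u : Om V) : Prop := ∃ β, dO β = u

variable (V) in
/-- the ideal of exact forms -/
def BI : Ideal (Zc V) where
  carrier := {u | Ex (fm u)}
  add_mem' := by
    rintro a b ⟨β, h⟩ ⟨γ, k⟩
    exact ⟨β + γ, by rw [map_add, map_add, h, k]⟩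
  zero_mem' := ⟨0, by rw [map_zero, map_zero]⟩
  smul_mem' := by
    rintro c a ⟨β, h⟩
    exact ⟨fm c * β, by rw [d_mul, d_fm, sg_fm, zero_mul, zero_add, h, smul_eq_mul, map_mul]⟩

variable (V) in
/-- the even real de Rham ring -/
def HH : Type := Zc V ⧸ BI V

instance : CommRing (HH V) := inferInstanceAs (CommRing (Zc V ⧸ BI V))

instance : Algebra ℝ (HH V) := inferInstanceAs (Algebra ℝ (Zc V ⧸ BI V))

/-- the class of a form -/
def mk : Zc V →ₐ[ℝ] HH V := Ideal.Quotient.mkₐ ℝ (BI V)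

theorem mk_surj : Function.Surjective (mk (V := V)) := Ideal.Quotient.mk_surjective

theorem mk_eq_zero {u : Zc V} : mk u = 0 ↔ Ex (fm u) := Ideal.Quotient.eq_zero_iff_mem

theorem mk_eq {u v : Zc V} : mk u = mk v ↔ Ex (fm u - fm v) := by
  rw [← map_sub, ← mk_eq_zero, map_sub, sub_eq_zero]

/-- linear maps which vanish on exact forms -/
def lift {A : Type} [AddCommGroup A] [Module ℝ A] (φ : Zc V →ₗ[ℝ] A)
    (h : ∀ u, Ex (fm u) → φ u = 0) : HH V →ₗ[ℝ] A :=
  (Submodule.liftQ ((BI V).restrictScalars ℝ) φ h).comp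
    (Submodule.Quotient.restrictScalarsEquiv ℝ (BI V)).symm.toLinearMap

theorem lift_mk {A : Type} [AddCommGroup A] [Module ℝ A] (φ : Zc V →ₗ[ℝ] A)
    (h : ∀ u, Ex (fm u) → φ u = 0) (u : Zc V) : lift φ h (mk u) = φ u := rfl

/-- operators which act on classes -/
structure Good (T : Om V →ₗ[ℂ] Om W) : Prop where
  z : ∀ u ∈ ZS V, T u ∈ ZS W
  b : ∀ u, Ex u → Ex (T u)

/-- the restriction to closed even real forms -/
def Good.res {T : Om V →ₗ[ℂ] Om W} (h : Good T) : Zc V →ₗ[ℝ] Zc W where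
  toFun u := mkZ (T (fm u)) (h.z _ (fm_mem u))
  map_add' a b := fm_inj (map_add T (fm a) (fm b))
  map_smul' c a := fm_inj (map_smul T (c : ℂ) (fm a))

open Classical in
/-- the action on classes -/
def desc (T : Om V →ₗ[ℂ] Om W) : HH V →ₗ[ℝ] HH W :=
  if h : Good T then lift (mk.toLinearMap.comp h.res) fun _ k => mk_eq_zero.2 (h.b _ k) else 0

theorem desc_mk {T : Om V →ₗ[ℂ] Om W} (h : Good T) {u : Zc V} {v : Zc W} (k : fm v = T (fm u)) :
    desc T (mk u) = mk v := by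
  rw [desc, dif_pos h, show v = h.res u from fm_inj k]
  rfl

theorem dg_d (k : ℕ) (u : Om V) : dgO (k + 1) (dO u) = dO (dgO k u) :=
  LinearMap.congr_fun ((cx_OK V).dg_d k) u

theorem dg0_d (u : Om V) : dgO 0 (dO u) = 0 := LinearMap.congr_fun (cx_OK V).dg0_d u

theorem cj_dg (k : ℕ) (u : Om V) : cjO (dgO k u) = dgO k (cjO u) := (cx_OK V).cjdg k u

theorem sg_dg (k : ℕ) (u : Om V) : sgO (dgO k u) = dgO k (sgO u) := ext fun e x h => by
  rw [val_sg _ h, val_dg _ _ h, val_dg _ _ h, val_sg _ h, Matrix.mulVec_mulVec,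
    Matrix.mulVec_mulVec, par, dg, dgl_mul, dgl_mul]
  simp only [mul_comm]

theorem good_dg (k : ℕ) : Good (dgO (V := V) k) where
  z u h := ⟨by rw [← dg_d, h.1, map_zero], by rw [sg_dg, h.2.1], by rw [cj_dg, h.2.2]⟩
  b := by
    rintro _ ⟨β, rfl⟩
    cases k with
    | zero => exact ⟨0, by rw [map_zero, dg0_d]⟩
    | succ k => exact ⟨_, (dg_d k β).symm⟩

variable (V) in
/-- the projector on the degree `2 k` -/
def prH (k : ℕ) : HH V →ₗ[ℝ] HH V := desc (dgO (k + k))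

/-- the constant in `dz ∧ dz̄ = -2 i dx ∧ dy` -/
def kp : ℂ := -2 * Complex.I

/-- the integral of the component of top degree -/
def intO : Om V →ₗ[ℂ] ℂ := (kp ^ n * sn n) • (cx V).Q.flip (1 : Om V)

theorem intO_eq (u : Om V) : intO u = kp ^ n * sn n * Qi (n := n) (M := V.X) u (1 : Om V) :=
  congrArg (fun c => kp ^ n * sn n * c) (Qi_eq (cx_real V) _ _).symm

theorem intO_d (u : Om V) : intO (dO u) = 0 := by
  have h := (cx_OK V).Qd u (1 : Om V)
  rw [show (cx V).d (1 : Om V) = 0 from d_one V, map_zero, neg_zero] at h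
  exact (congrArg (fun c => kp ^ n * sn n * c) h).trans (mul_zero _)

variable (V) in
/-- the integral of a class -/
def intH : HH V →ₗ[ℝ] ℝ :=
  lift (Complex.reLm.comp ((intO.restrictScalars ℝ).comp fm.toLinearMap)) (by
    rintro u ⟨β, h⟩
    show (intO (fm u)).re = 0
    rw [← h, intO_d, Complex.zero_re])

theorem intH_mk (u : Zc V) : intH V (mk u) = (intO (fm u)).re := rfl

theorem pb_mem {f : V.X → W.X} (hf : HolM n m f) {u : Om W} (h : u ∈ ZS W) : pb hf u ∈ ZS V :=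
  ⟨by rw [← pb_d, h.1, map_zero], by rw [← pb_sg, h.2.1], by rw [← pb_cj, h.2.2]⟩

/-- the pull back of closed even real forms -/
def pbZ {f : V.X → W.X} (hf : HolM n m f) : Zc W →ₐ[ℝ] Zc V :=
  AlgHom.codRestrict (((pb hf).restrictScalars ℝ).comp fm) (ZS V) fun u => pb_mem hf (fm_mem u)

theorem fm_pbZ {f : V.X → W.X} (hf : HolM n m f) (u : Zc W) : fm (pbZ hf u) = pb hf (fm u) := rfl

/-- the pull back of classes -/
def pullH {f : V.X → W.X} (hf : HolM n m f) : HH W →ₐ[ℝ] HH V :=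
  Ideal.Quotient.liftₐ (BI W) (mk.comp (pbZ hf)) (by
    rintro u ⟨β, h⟩
    exact mk_eq_zero.2 ⟨pb hf β, by rw [← pb_d, h]; rfl⟩)

theorem pullH_mk {f : V.X → W.X} (hf : HolM n m f) (u : Zc W) :
    pullH hf (mk u) = mk (pbZ hf u) := rfl

open Classical in
/-- the integral over the fibre -/
def pushO (f : V.X → W.X) : Om V →ₗ[ℂ] Om W :=
  if h : ∃ T : SF n V.X →ₗ[ℂ] SF m W.X, IsPush f T then
    kp ^ (n - m) • (show Om V →ₗ[ℂ] Om W from h.choose) else 0

/-- the form `i ∑ w_jk dz_j ∧ dz̄_k` -/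
def IsW (w : Rw n V.X (Matrix (Fin n) (Fin n) ℂ)) (u : Om V) : Prop :=
  ∀ e x, At e x → val u e (e x) = Lw (w e (e x)) *ᵥ ev ∅

/-- `u` is the Chern form of the metric `ψ` on `L` -/
def IsC1 (L : Bd V.X) (ψ : L.ι → V.X → ℝ) (u : Om V) : Prop :=
  IsMet n L ψ ∧ ∀ a e x, At e x → x ∈ L.U a → val u e (e x) =
    ((2 * Real.pi : ℝ) : ℂ)⁻¹ • (Lw (cHess (fun z => ψ a (e.symm z)) (e x)) *ᵥ ev ∅)

open Classical in
variable (V) in
/-- the first Chern class -/
def c1H (L : Bd V.X) : HH V :=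
  prH V 1 (if h : ∃ u : Zc V, ∃ ψ, IsC1 L ψ (fm u) then mk h.choose else 0)

/-- `u` is the function `a` -/
def IsFn (a : V.X → ℂ) (u : Om V) : Prop := ∀ e x, At e x → val u e (e x) = a x • ev ∅

/-- the idempotent matrix `P` represents the bundle `E` -/
def Rep (E : VB V.X) {N : ℕ} (P : Matrix (Fin N) (Fin N) (Om V)) : Prop :=
  ∃ (a : ∀ x, E.A x →ₗ[ℂ] (VB.triv V.X N).A x) (b : ∀ x, (VB.triv V.X N).A x →ₗ[ℂ] E.A x),
    IsHom n E (VB.triv V.X N) a ∧ IsHom n (VB.triv V.X N) E b ∧ (∀ x v, b x (a x v) = v) ∧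
    ∀ i j, IsFn (fun x => (a x (b x (Pi.single j 1)) : Fin N → ℂ) i) (P i j)

/-- `u` represents `k!` times the component of degree `2 k` of the Chern character -/
def IsPs (E : VB V.X) (k : ℕ) (u : Om V) : Prop :=
  ∃ (N : ℕ) (P : Matrix (Fin N) (Fin N) (Om V)), Rep E P ∧
    Ex (u - (Complex.I / (2 * Real.pi)) ^ k • P231.ChW.ch k P)

open Classical in
variable (V) in
/-- the power sums of the Chern roots -/
def psH (E : VB V.X) (k : ℕ) : HH V :=
  prH V k (if h : ∃ u : Zc V, IsPs E k (fm u) then mk h.choose else 0)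

/-- semipositive `(1,1)` forms with null spaces in `N` -/
def SpF (u : Om V) (N : V.X → Submodule ℂ (Cm n)) : Prop :=
  ∃ w, IsW w u ∧ (∀ e x, At e x → (w e (e x)).PosSemidef) ∧
    ∀ x v, v ⬝ᵥ (w (chartAt (Cm n) x) (chartAt (Cm n) x x) *ᵥ star v) = 0 → v ∈ N x

/-- sums of `(k,k)` forms -/
def TyF (u : Om V) : Prop := ∀ k, pmO k (dgO (k + k) u) = dgO (k + k) u

/-- weakly positive forms: the restrictions to all complex subspaces are nonnegative -/
def WpF (u : Om V) : Prop :=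
  TyF u ∧ ∀ (k : ℕ) e x, At e x → ∀ J : Matrix (Fin n) (Fin k) ℂ,
    0 ≤ kp ^ k * sn k * (lr (jc (fun z : Cm k => (J *ᵥ z : Cm n)) 0) *ᵥ val u e (e x)) Finset.univ

/-- **the concrete theory** -/
def ct : CT where
  H V := HH V
  pr V := prH V
  int V := intH V
  pull hf := pullH hf
  push f := desc (pushO f)
  c1 V := c1H V
  ps V := psH V
  Sp _ := {q | ∃ u, mk u = q.1 ∧ SpF (fm u) q.2}
  Wp _ := {a | ∃ u, mk u = a ∧ WpF (fm u)}
  Ty _ := Algebra.adjoin ℝ {a | ∃ u, mk u = a ∧ TyF (fm u)}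

theorem pr_mk (k : ℕ) {u v : Zc V} (h : fm v = dgO (k + k) (fm u)) : prH V k (mk u) = mk v :=
  desc_mk (good_dg _) h

end Vale.Agent.P280Z.Co
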