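import Vale.Agent.P287D.Zc.CoSk
import Vale.Agent.P287D.Zc.LatHr
import Vale.Agent.P287D.Zc.LatVol
import Vale.Agent.P287D.Zc.LatPwa
import Vale.Agent.P287D.Zc.LatPwb
import Vale.Agent.P287D.Zc.LatD11
import Vale.Agent.P281Z.Mf.Sub

/-!
# P280Z: exact real `(1,1)` forms have a potential; line bundles with a Kähler class are positive
-/

open scoped Manifold ContDiff Topology Matrix ComplexOrder
open Set Filter
open Vale.Agent.P272.K Vale.Agent.P272.K.INT Vale.Agent.P281Z Vale.Agent.P281Z.Hg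
  Vale.Agent.P285.H281.FD Vale.Agent.P299.IX Vale.Agent.P299.IX.Fock
open Vale.Agent.P301Z.Lat (Fld Fs R11 Is11 Ex2 Cl2 Vol dR f11 m11 pwa pwb_of d11_of)
open Vale.Agent.P301.H599 (ddc)
open TopologicalSpace (Opens)

noncomputable section

namespace Vale.Agent.P280Z.Co

namespace Ddb

variable {n : ℕ} {V : Mf n}

theorem cx_eq (V : Mf n) : cx V = dR V := P301Z.Lat.dR_eq V (cx_real V)

theorem vol11 {a : Fld V} {u : Fs V} (hH : ∀ e x, At e x → (a e (e x)).IsHermitian)
    (hu : Is11 a u) : Vol u = (intX (fun e z => (a e z).det.re) : ℝ) :=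
  P301Z.Lat.VolX.real u _ fun e x hx => by
    rw [hu.val hx, (pwb_of pwa).det]
    refine (Complex.conj_eq_iff_re.1 ?_).symm
    have h := Matrix.det_conjTranspose (a e (e x))
    rw [(hH e x hx).eq] at h
    exact h.symm

/-- the connected case -/
theorem conn [PreconnectedSpace V.X] [Nonempty V.X] (hn : 0 < n) (hk : V.Kah) {a : Fld V}
    (ha : R11 a) {u : Fs V} (hu : Is11 a u) (he : Ex2 V u) :
    ∃ φ : V.X → ℝ, SmoothFn (n := n) φ ∧
      ∀ e x, At e x → a e (e x) = cHess (fun z => φ (e.symm z)) (e x) := by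
  obtain ⟨w, hw⟩ := hk
  have ra : P301.H450.IsReal11 a := ⟨ha.toIsClosedForm, ha.herm⟩
  obtain ⟨t, ht, hχ⟩ := P301.H450.exists_small hw ra
  obtain ⟨f, c, hf, h1, h2, -⟩ := P299.H835.yauMetric
    (φ := fun e z => Real.log (w e z).det.re) hχ
    ⟨fun e x hx => EST.smooth_logdet hw.toIsHermitian hx.1 (e.map_source hx.2),
      fun e e' x p q => log_det_change hw.toIsHermitian p q⟩
  have rf := P301.H450.isReal11_ddc hf
  have rb := (ra.smul t).add rf
  set b : Fld V := fun e z => (t : ℂ) • a e z + ddc f e z with hb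
  obtain ⟨u0, hu0⟩ := (d11_of pwa).ex (R11.kahler hw)
  obtain ⟨u1, hu1⟩ := (d11_of pwa).ex (a := ddc f) ⟨rf.toIsClosedForm, rf.herm⟩
  have eb : Ex2 V ((t : ℂ) • u + u1) := (he.smul _).add ((d11_of pwa).ddc hf hu1)
  have hv : ∀ s : ℝ, (intX fun e z => (w e z + (s : ℂ) • b e z).det.re) =
      intX fun e z => (w e z).det.re := fun s => by
    have k := P301Z.Lat.VolX.cls ((d11_of pwa).cl (R11.kahler hw) hu0).1 (eb.smul (s : ℂ))
    rw [vol11 (R11.kahler hw).herm hu0, vol11 (a := fun e z => w e z + (s : ℂ) • b e z)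
      ((P301.H450.isReal11_kahler hw).add (rb.smul s)).herm] at k
    · exact Complex.ofReal_injective k
    · intro e x hx
      rw [vl_add, vl_smul, vl_add, vl_smul, hu0.val hx, hu.val hx, hu1.val hx, ← pwa.f11_smul,
        ← pwa.f11_add, ← pwa.f11_smul, ← pwa.f11_add]
      rfl
  have e1 : ∀ e z, addH (fun e z => w e z + (t : ℂ) • a e z) f e z = w e z + b e z := fun e z =>
    add_assoc _ _ _
  have e2 : ∀ e x, At e x → (w e (e x) + b e (e x)).det.re = Real.exp c * (w e (e x)).det.re :=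
    fun e x hx => by
      rw [← e1, ← Real.exp_log (h1.toIsHermitian.det_re_pos hx), h2 e hx.1 _ (e.map_source hx.2),
        Real.exp_add, Real.exp_log (hw.toIsHermitian.det_re_pos hx), mul_comm]
  have e3 := P301Z.Lat.Hr.der hw rb.toIsClosedForm
  rw [funext hv] at e3
  obtain ⟨-, c2⟩ := P301Z.Lat.Hr.core hn hw rb.toIsClosedForm
    (fun e x hx => e1 e _ ▸ h1.posDef e x hx) e2 (e3.unique (hasDerivAt_const _ _))
  have e5 : c = 0 := by
    have p1 := hv 1
    simp only [Complex.ofReal_one, one_smul] at p1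
    rw [intX_congr (D' := fun e z => Real.exp c * (w e z).det.re) e2, intX_const_mul,
      mul_eq_right₀ (intX_pos (IsKahler.isClosedForm hw).isDensity fun e x hx =>
        hw.toIsHermitian.det_re_pos hx).ne', Real.exp_eq_one_iff] at p1
    exact p1
  refine ⟨fun x => -t⁻¹ * f x, fun e x hx => contDiffAt_const.mul (hf e x hx), fun e x hx => ?_⟩
  have p1 : (t : ℂ) • a e (e x) + ddc f e (e x) = 0 := c2 e5 e x hx
  have p2 : cHess (fun z => -t⁻¹ * f (e.symm z)) (e x) = ((-t⁻¹ : ℝ) : ℂ) • ddc f e (e x) :=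
    C2.cHess_const_mul _ ((hf e x hx).of_le two_le_inf)
  have p3 : (t : ℂ) ≠ 0 := by exact_mod_cast ht.ne'
  rw [p2, ← neg_eq_iff_add_eq_zero.2 p1, smul_neg, smul_smul]
  simp [p3]

/-- real forms of type `(1,1)` -/
structure T11 (u : Om V) : Prop where
  dg : dgO 2 u = u
  pm : pmO 1 u = u
  cj : cjO u = u

theorem t11 {w : Fld V} {u : Om V} (hw : IsW w u)
    (hH : ∀ e x, At e x → (w e (e x)).IsHermitian) : T11 u :=
  have h : ∀ e x, At e x → val u e (e x) = f11 (w e (e x)) := hw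
  ⟨ext fun e x hx => by rw [val_dg _ _ hx, h e x hx, pwa.dg11],
    ext fun e x hx => by rw [val_pm _ _ hx, h e x hx, pwa.pm11],
    ext fun e x hx => by rw [val_cj _ hx, h e x hx, pwa.cjv11, (hH e x hx).eq]⟩

theorem T11.r11 {u : Om V} (h : T11 u) (hd : dO u = 0) : ∃ a : Fld V, R11 a ∧ Is11 a u :=
  (d11_of pwa).of (V := V) (u := u) (by
    unfold Cl2
    rw [← cx_eq]
    exact ⟨hd, h.dg⟩) (by
    unfold P301Z.Lat.ReF
    rw [← cx_eq]
    exact h.cj) fun e x hx => (val_pm 1 u hx).symm.trans (by rw [h.pm]; rfl)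

theorem T11.ex2 {u : Om V} (h : T11 u) (he : Ex u) : Ex2 V u := by
  obtain ⟨β, hβ⟩ := he
  refine Ex2.of_d (V := V) (u := u) (β := β) ?_ ?_
  · rw [← cx_eq]
    exact h.dg
  · rw [← cx_eq]
    exact hβ.symm

theorem f11_inj {A B : Matrix (Fin n) (Fin n) ℂ} (h : f11 A = f11 B) : A = B := by
  rw [← pwa.m11_f11 A, h, pwa.m11_f11]

theorem imc (S : Opens V.X) (hS : Nonempty S) {e : Chart n V.X} (he : e ∈ atlas (Cm n) V.X) :
    ImC n (Subtype.val : S → V.X) (e.subtypeRestr hS) := by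
  intro z hz e' he'
  have hc : Co n e := ⟨fun y hy => anV_chart ⟨he, hy⟩, fun v hv e' he' => by
    have h := P277Z.trans_an he' (show At e (e.symm v) from ⟨he, e.map_target hv⟩)
    rwa [e.right_inv hv] at h⟩
  have k : (fun z' => e' ((e.subtypeRestr hS).symm z' : V.X)) =ᶠ[𝓝 z] fun z' => e' (e.symm z') := by
    filter_upwards [(e.subtypeRestr hS).open_target.mem_nhds hz] with z' hz'
    exact congrArg e' (e.subtypeRestr_symm_apply hS hz')
  have hz' := e.subtypeRestr_target_subset hS hz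
  have he'' : At e' (e.symm z) := e.subtypeRestr_symm_apply hS hz ▸ he'
  exact ⟨(hc.inv z hz' e' he'').congr k.symm, by
    rw [k.fderiv_eq]
    exact hc.inj hz' he''⟩

/-- a component as a manifold -/
theorem comp (V : Mf n) (x : V.X) : ∃ (W : Mf n) (i : W.X → V.X), PreconnectedSpace W.X ∧
    Nonempty W.X ∧ HolM n n i ∧ (∀ z, Imm n n i z) ∧ Function.Injective i ∧
    ∀ (e : Chart n V.X) y, y ∈ connectedComponent x → At e y → ∃ (c : Chart n W.X) (z : W.X),
      At c z ∧ i z = y ∧ c z = e y ∧ ∀ᶠ t in 𝓝 (e y), i (c.symm t) = e.symm t := by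
  let S : Opens V.X := ⟨connectedComponent x, isOpen_connectedComponent⟩
  have hS : Nonempty S := ⟨⟨x, mem_connectedComponent⟩⟩
  have : CompactSpace S := isCompact_iff_compactSpace.1 isClosed_connectedComponent.isCompact
  let A : Atl n n (Subtype.val : S → V.X) :=
    ⟨fun z => (chartAt (Cm n) z.1).subtypeRestr hS, fun z => by
      rw [OpenPartialHomeomorph.subtypeRestr_source]
      exact mem_chart_source _ _, fun z => imc S hS (chart_mem_atlas _ _), continuous_subtype_val⟩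
  refine ⟨A.mf, Subtype.val, Subtype.preconnectedSpace isPreconnected_connectedComponent, hS,
    A.hol, A.imm', Subtype.val_injective, fun e y hy hAt => ?_⟩
  have hs : (⟨y, hy⟩ : S) ∈ (e.subtypeRestr hS).source := by
    rw [OpenPartialHomeomorph.subtypeRestr_source]
    exact hAt.2
  refine ⟨e.subtypeRestr hS, ⟨y, hy⟩, ⟨imc S hS hAt.1, hs⟩, rfl, rfl, ?_⟩
  have hN : (e.subtypeRestr hS).target ∈ 𝓝 (e y) :=
    (e.subtypeRestr hS).open_target.mem_nhds ((e.subtypeRestr hS).map_source hs)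
  filter_upwards [hN] with z hz
  exact e.subtypeRestr_symm_apply hS hz

/-- the potential on one component -/
theorem loc (hn : 0 < n) (hk : V.Kah) {w : Fld V} {u : Om V} (hw : IsW w u) (ht : T11 u)
    (he : Ex u) (x : V.X) : ∃ ψ : V.X → ℝ, ∀ (e : Chart n V.X) y, y ∈ connectedComponent x →
      At e y → ContDiffAt ℝ ∞ (fun z => ψ (e.symm z)) (e y) ∧
        w e (e y) = cHess (fun z => ψ (e.symm z)) (e y) := by
  obtain ⟨W, i, _, _, hf, him, hinj, H⟩ := comp V x
  obtain ⟨w0, hw0⟩ := hk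
  have ht' : T11 (pb hf u) :=
    ⟨by rw [← pb_dg, ht.dg], by rw [← pb_pmO, ht.pm], by rw [← pb_cj, ht.cj]⟩
  have he' : Ex (pb hf u) := by
    obtain ⟨β, hβ⟩ := he
    exact ⟨pb hf β, by rw [← pb_d, hβ]⟩
  obtain ⟨a, ha, hu⟩ := ht'.r11 (by
    obtain ⟨β, hβ⟩ := he'
    rw [← hβ, dd])
  obtain ⟨φ, h1, h2⟩ := conn hn ⟨_, kah_of_imm hf him hw0⟩ ha hu (ht'.ex2 he')
  refine ⟨Function.extend i φ 0, fun e y hy hAt => ?_⟩
  obtain ⟨c, z, hc, rfl, hz, hN⟩ := H e y hy hAt
  have k1 : (fun t => Function.extend i φ 0 (e.symm t)) =ᶠ[𝓝 (e (i z))] fun t => φ (c.symm t) := by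
    filter_upwards [hN] with t ht
    rw [← ht]
    exact hinj.extend_apply _ _ _
  have k2 : (fun t => e (i (c.symm t))) =ᶠ[𝓝 (c z)] fun t => t := by
    rw [hz]
    filter_upwards [hN, e.open_target.mem_nhds (e.map_source hAt.2)] with t ht ht'
    rw [ht, e.right_inv ht']
  have k3 := pb_is hf u c e z hc hAt
  rw [k1b'.jc_congr k2, k1b'.jc_id] at k3
  have k5 : f11 (w e (e (i z))) = f11 (a c (c z)) :=
    (hw e _ hAt).symm.trans ((Matrix.one_mulVec _).symm.trans
      ((congrArg (fun J => J *ᵥ val u e (e (i z))) lam_one).symm.trans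
        (k3.symm.trans (hu.val hc))))
  refine ⟨(hz ▸ h1 c z hc).congr_of_eventuallyEq k1, ?_⟩
  rw [C2.cHess_congr k1, f11_inj k5, h2 c z hc, hz]

end Ddb

/-- row DDB -/
theorem ddb : DDB := by
  intro n V hk w u hw hH he
  rcases n.eq_zero_or_pos with rfl | hn
  · exact ⟨fun _ => 0, fun _ _ _ => contDiffAt_const, fun _ _ _ => Subsingleton.elim _ _⟩
  have H : ∀ S : Set V.X, ∃ ψ : V.X → ℝ, ∀ x, S = connectedComponent x →
      ∀ (e : Chart n V.X) y, y ∈ S → At e y → ContDiffAt ℝ ∞ (fun z => ψ (e.symm z)) (e y) ∧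
        w e (e y) = cHess (fun z => ψ (e.symm z)) (e y) := fun S => by
    by_cases h : ∃ x, S = connectedComponent x
    · obtain ⟨x, rfl⟩ := h
      obtain ⟨ψ, hψ⟩ := Ddb.loc hn hk hw (Ddb.t11 hw hH) he x
      exact ⟨ψ, fun _ _ => hψ⟩
    · exact ⟨0, fun x hx => absurd ⟨x, hx⟩ h⟩
  choose Ψ hΨ using H
  have k : ∀ (e : Chart n V.X) x, At e x →
      (fun z => Ψ (connectedComponent (e.symm z)) (e.symm z)) =ᶠ[𝓝 (e x)]
        fun z => Ψ (connectedComponent x) (e.symm z) := fun e x hx => by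
    filter_upwards [(e.tendsto_symm hx.2).eventually
      (isOpen_connectedComponent.mem_nhds (mem_connectedComponent (x := x)))] with z hz
    rw [connectedComponent_eq hz]
  refine ⟨fun x => Ψ (connectedComponent x) x, fun e x hx => ?_, fun e x hx => ?_⟩
  · exact (hΨ _ x rfl e x mem_connectedComponent hx).1.congr_of_eventuallyEq (k e x hx)
  · rw [C2.cHess_congr (k e x hx)]
    exact (hΨ _ x rfl e x mem_connectedComponent hx).2

/-- row KP -/
theorem kp_of (h : C1E) (d : DDB) : ct.KP := by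
  intro n V L hL hK
  obtain ⟨u, hu, w, hw, hp, h0⟩ := hK
  obtain ⟨⟨ψ, hψ⟩, H⟩ := h V L hL
  obtain ⟨v, hv, hc⟩ := H ψ hψ
  have hE : Ex (fm u - fm v) := mk_eq.1 (hu.trans hc)
  obtain ⟨a, ha, hau⟩ := (Ddb.t11 hw fun e x hx => (hp e x hx).isHermitian).r11 (d_fm u)
  have e0 : ∀ e x, At e x → a e (e x) = w e (e x) := fun e x hx =>
    Ddb.f11_inj ((hau.val hx).symm.trans (hw e x hx))
  have hpos : ∀ e x, At e x → (a e (e x)).PosDef := fun e x hx => by
    have hx' : At (chartAt (Cm n) x) x := P301Z.Lat.at_chart x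
    have p1 : (a (chartAt (Cm n) x) (chartAt (Cm n) x x)).PosDef := by
      rw [e0 _ x hx']
      refine Matrix.PosDef.of_dotProduct_mulVec_pos (hp _ x hx').isHermitian fun y hy => ?_
      refine ((hp _ x hx').dotProduct_mulVec_nonneg y).lt_of_ne' fun q => hy ?_
      exact star_eq_zero.1 (h0 x (star y) (by rwa [star_star]))
    refine ((e0 e x hx).symm ▸ hp e x hx : (a e (e x)).PosSemidef).posDef_iff_det_ne_zero.2 ?_
    rw [ha.form e _ x hx hx', Matrix.det_mul, Matrix.det_mul, Matrix.det_transpose,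
      ← RingHom.mapMatrix_apply, ← RingHom.map_det]
    exact mul_ne_zero (mul_ne_zero (jacM_det_ne_zero hx hx') p1.det_pos.ne')
      ((map_ne_zero _).2 (jacM_det_ne_zero hx hx'))
  have hk : V.Kah := ⟨a, P301.H450.isKahler_of ⟨ha.toIsClosedForm, ha.herm⟩ hpos⟩
  have e1 : ∀ i e x, At e x → x ∈ L.U i → val (fm u - fm v) e (e x) = f11 (a e (e x) -
      (((2 * Real.pi)⁻¹ : ℝ) : ℂ) • cHess (fun z => ψ i (e.symm z)) (e x)) := fun i e x hx hi => by
    rw [val_sub, hv.2 i e x hx hi, sub_eq_add_neg (a e (e x)), pwa.f11_add, ← neg_smul,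
      pwa.f11_smul, neg_smul, ← sub_eq_add_neg, Complex.ofReal_inv]
    exact congrArg (· - _) (hau.val hx)
  have two : ∀ i e x, At e x → x ∈ L.U i → ContDiffAt ℝ 2 (fun z => ψ i (e.symm z)) (e x) :=
    fun i e x hx hi => (hψ.smooth i e x hx hi).of_le two_le_inf
  obtain ⟨φ, hφ, hd⟩ := d V hk (fun e z => m11 (val (fm u - fm v) e z)) (fm u - fm v)
    (fun e x hx => by
      obtain ⟨i, hi⟩ := hL.cover x
      beta_reduce
      rw [e1 i e x hx hi, pwa.m11_f11]
      rfl)
    (fun e x hx => by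
      obtain ⟨i, hi⟩ := hL.cover x
      rw [e1 i e x hx hi, pwa.m11_f11]
      refine (ha.herm e x hx).sub ?_
      have := C2.cHess_isHermitian (two i e x hx hi)
      rw [Matrix.IsHermitian, Matrix.conjTranspose_smul, this.eq, Complex.star_def,
        Complex.conj_ofReal]) hE
  refine ⟨fun i x => ψ i x + 2 * Real.pi * φ x, ⟨fun i e x hx hi =>
    (hψ.smooth i e x hx hi).add (contDiffAt_const.mul (hφ e x hx)), fun i j x hi hj => ?_⟩,
    fun i e x hx hi => ?_⟩
  · rw [hψ.change i j x hi hj]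
    ring
  · have q1 := hd e x hx
    have q2 := (hφ e x hx).of_le two_le_inf
    rw [e1 i e x hx hi, pwa.m11_f11] at q1
    rw [C2.cHess_add (two i e x hx hi) (contDiffAt_const.mul q2), C2.cHess_const_mul _ q2, ← q1,
      smul_sub, smul_smul, ← Complex.ofReal_mul, mul_inv_cancel₀ Real.two_pi_pos.ne',
      Complex.ofReal_one, one_smul, add_sub_cancel]
    exact posDef_ofReal_smul (hpos e x hx) Real.two_pi_pos

end Vale.Agent.P280Z.Co
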