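import Vale.Agent.P287D.Zc.CoSk
import Vale.Agent.P287D.Zc.LatHd

/-!
# P280Z, row NE: closed forms orthogonal to all closed forms are exact
-/

open scoped Manifold ContDiff Topology Matrix
open Set Filter
open Vale.Agent.P272.K Vale.Agent.P299.IX Vale.Agent.P299.IX.Fock Vale.Agent.P281Z
  Vale.Agent.P281Z.Hg Vale.Agent.P281Z.Hg.G2H Vale.Agent.P280Z.Pu
open Vale.Agent.P301Z.Lat (dR dR_eq exists_pack ms)

noncomputable section

namespace Vale.Agent.P280Z.Co

namespace NeH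

variable {n : ℕ} {V : Mf n}

theorem ex_rv : ∃ A : Module.End ℂ (SF n V.X), IsOp (fun _ _ => (dgl sn : Fm n)) A :=
  G1H.op _ ⟨fun _ _ _ => MC_const _ _, fun _ _ _ _ _ => dgl_lam _ _⟩

/-- the reversal of products -/
def rvO : Om V →ₗ[ℂ] Om V := (ex_rv (V := V)).choose

theorem val_rv (u : Om V) {e : Chart n V.X} {x : V.X} (h : At e x) :
    val (rvO u) e (e x) = dgl sn *ᵥ val u e (e x) := ex_rv.choose_spec u e x h

theorem rv_dg (k : ℕ) (u : Om V) : rvO (dgO k u) = sn k • dgO k u := ext fun e x h => by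
  rw [val_rv _ h, val_smul, val_dg _ _ h]
  funext I
  rw [dgl_mulVec, Pi.smul_apply, dg, dgl_mulVec, smul_eq_mul]
  split_ifs with hI
  · rw [hI]
  · simp

theorem dg_rv (k : ℕ) (u : Om V) : dgO k (rvO u) = sn k • dgO k u := ext fun e x h => by
  rw [← rv_dg, val_dg _ _ h, val_rv _ h, val_rv _ h, val_dg _ _ h, Matrix.mulVec_mulVec,
    Matrix.mulVec_mulVec, dg, dgl_mul, dgl_mul]
  simp only [mul_comm]

/-- the pairing of the de Rham complex -/
def QO (u v : Om V) : ℂ := (cx V).Q u v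

/-- the integral of a product through the pairing -/
theorem intO_mul (u v : Om V) : intO (u * v) = kp ^ n * sn n * QO v (rvO u) := by
  refine (intO_eq _).trans (congrArg (fun c => kp ^ n * sn n * c)
    (Eq.trans (itg_congr fun e x h => ?_) (Qi_eq (cx_real V) v (rvO u))))
  show Bq (val (u * v) e (e x)) (val (1 : Om V) e (e x)) =
    Bq (val v e (e x)) (val (rvO u) e (e x))
  rw [val_mul _ _ h, val_one h, val_rv _ h, Bq_wg, f1a.wg_one]

theorem QO_smul (c : ℂ) (u v : Om V) : QO u (c • v) = c * QO u v := map_smul ((cx V).Q u) c v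

theorem QO_dg {j k : ℕ} (h : j + k = n + n) (u v : Om V) : QO (dgO j u) v = QO u (dgO k v) :=
  (cx_OK V).Qdg j k u v h

/-- the integral of a product whose first factor has degree `k` -/
theorem intO_hom {k : ℕ} {u : Om V} (hu : dgO k u = u) (v : Om V) :
    intO (u * v) = kp ^ n * sn n * sn k * (cx V).Q v u := by
  rw [intO_mul, ← hu, rv_dg, QO_smul, hu, mul_assoc _ (sn k)]
  rfl

theorem intO_dg {j k : ℕ} (h : j + k = n + n) (u v : Om V) :
    intO (dgO k u * v) = intO (u * dgO j v) := by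
  rw [intO_mul, intO_mul, QO_dg h, rv_dg, dg_rv]

theorem kp_ne : kp ≠ 0 := mul_ne_zero (neg_ne_zero.2 two_ne_zero) Complex.I_ne_zero

theorem dg_dg (k : ℕ) (u : Om V) : dgO k (dgO k u) = dgO k u :=
  LinearMap.congr_fun (((cx_OK V).dg_mul k k).trans (if_pos rfl)) u

theorem dg_sum (u : Om V) : ∑ k ∈ Finset.range (n + n + 1), dgO k u = u := by
  exact (LinearMap.sum_apply _ _ _).symm.trans (LinearMap.congr_fun (cx_OK V).dg_sum u)

theorem d_dg {u : Om V} (h : dO u = 0) (k : ℕ) : dO (dgO k u) = 0 := by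
  rw [← dg_d, h, map_zero]

theorem ex_sum {ι : Type} (s : Finset ι) {f : ι → Om V} (h : ∀ i ∈ s, Ex (f i)) :
    Ex (∑ i ∈ s, f i) := by
  choose! β hβ using h
  exact ⟨∑ i ∈ s, β i, by rw [map_sum]; exact Finset.sum_congr rfl hβ⟩

/-- homogeneous forms in the null space of the pairing are exact -/
theorem nul_ex (hV : V.Kah) {X : Cx (SF n V.X) n} (hX : RealX X) {k : ℕ} {z : SF n V.X}
    (hz : X.dg k z = z) (hn : z ∈ X.Nul) : ∃ β, X.d β = z := by
  obtain ⟨w, hw⟩ := hV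
  obtain rfl := dR_eq V hX
  obtain ⟨K, P⟩ := exists_pack V hw
  let _ := ms V
  obtain ⟨y, hy⟩ := P.kh.nc z hn
  cases k with
  | zero =>
    have h1 := P301Z.Lat.HdH.null_op P (P.kib.dgb 0) hy
    have h2 : ∀ s, (dR V).dg 0 (z - (dR V).d (y s)) = z := fun s => by
      rw [map_sub, hz, show (dR V).dg 0 ((dR V).d (y s)) = 0 from
        LinearMap.congr_fun (P301Z.Lat.dR_ok V).dg0_d _, sub_zero]
    simp only [h2] at h1
    exact ⟨0, by rw [map_zero, P301Z.Lat.HdH.null_const P h1]⟩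
  | succ m =>
    obtain ⟨β, hβ⟩ := P301Z.Lat.HdH.nex_abs P.eok (P.per (m + 1)) (P.r1 (m + 1)).1
      (P.r1 (m + 1)).2 (P.i1 (m + 1)).2 ⟨hn.1, hz⟩ hy
    exact ⟨β, hβ.symm⟩

end NeH

open NeH in
/-- **row NE** -/
theorem ne : NE := by
  intro n V hV u hu h
  rw [← dg_sum u]
  refine ex_sum _ fun k hk => nul_ex hV (cx_real V) (dg_dg k u) ⟨d_dg hu k, fun y hy => ?_⟩
  have hk' : n + n - k + k = n + n := by
    have := Finset.mem_range.1 hk
    omega
  have h1 := (intO_hom (dg_dg k u) y).symm.trans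
    ((intO_dg hk' u y).trans (h _ (d_dg (u := y) hy (n + n - k))))
  exact (mul_eq_zero.1 h1).resolve_left
    (mul_ne_zero (mul_ne_zero (pow_ne_zero _ kp_ne) (sn_ne _)) (sn_ne _))

end Vale.Agent.P280Z.Co
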