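import Vale.Agent.P287D.Zc.CoCt
import Vale.Agent.P281Z.Hg.Fib
import Vale.Agent.P301Z.Rot.F2

/-!
# P280Z: weakly positive forms at a point
-/

open scoped Topology Matrix ComplexOrder
open Filter Function
open Vale.Agent.P272.K Vale.Agent.P299.IX Vale.Agent.P299.IX.Fock Vale.Agent.P281Z.Hg
  Vale.Agent.P280Z.Pu Vale.Agent.P280Z.Pu.AlgH
open Vale.Agent.P272.K.QN (jm jm_apply)

noncomputable section

namespace Vale.Agent.P280Z.Co.Ps

variable {n k l p d : ℕ}

/-- the complexified Jacobian matrix of a linear map -/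
def rj (J : Matrix (Fin n) (Fin k) ℂ) : Matrix (Fin (k + k)) (Fin (n + n)) ℂ :=
  jc (fun z : Cm k => (J *ᵥ z : Cm n)) 0

/-- the pull back by a linear map -/
def pl (J : Matrix (Fin n) (Fin k) ℂ) : Matrix (FI (k + k)) (FI (n + n)) ℂ := lr (rj J)

/-- the normalised top coefficient -/
def top (u : Fo k) : ℂ := kp ^ k * sn k * u Finset.univ

/-- weakly positive forms -/
def WpP (u : Fo n) : Prop := ∀ (k : ℕ) (J : Matrix (Fin n) (Fin k) ℂ), 0 ≤ top (pl J *ᵥ u)

/-- the restriction of a Hermitian form -/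
def rs (J : Matrix (Fin n) (Fin k) ℂ) (w : Matrix (Fin n) (Fin n) ℂ) : Matrix (Fin k) (Fin k) ℂ :=
  Jᵀ * w * J.map (starRingEnd ℂ)

theorem f2T : F2b := f2b f1a f1b f2a

theorem dfl (J : Matrix (Fin n) (Fin k) ℂ) (z : Cm k) :
    HasFDerivAt (fun z : Cm k => (J *ᵥ z : Cm n))
      (LinearMap.toContinuousLinearMap (Matrix.mulVecLin J)) z :=
  (LinearMap.toContinuousLinearMap (Matrix.mulVecLin J)).hasFDerivAt

theorem jm_lin (J : Matrix (Fin n) (Fin k) ℂ) (z : Cm k) :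
    jm (fun z : Cm k => (J *ᵥ z : Cm n)) z = J := by
  ext a i
  rw [jm_apply (dfl J z).differentiableAt, (dfl J z).fderiv]
  simp

theorem jc_eq {ψ : Cm k → Cm n} {z : Cm k} (h : DifferentiableAt ℂ ψ z) :
    jc ψ z = rj (jm ψ z) := by
  have h' := (dfl (jm ψ z) 0).differentiableAt
  have e := fun j i => congrFun (congrFun (jm_lin (jm ψ z) 0) j) i
  refine Kb.ext4 (fun i j => ?_) (fun i j => ?_) (fun i j => ?_) fun i j => ?_
  · rw [rj, Kb.jc_hh, Kb.jc_hh]
    exact (e j i).symm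
  · rw [rj, Kb.jc_ha (h.restrictScalars ℝ), Kb.jc_ha (h'.restrictScalars ℝ),
      Kb.dzb_hol (differentiableAt_pi.1 h j), Kb.dzb_hol (differentiableAt_pi.1 h' j)]
  · rw [rj, Kb.jc_ah, Kb.jc_ah, Kb.dzb_hol (differentiableAt_pi.1 h j),
      Kb.dzb_hol (differentiableAt_pi.1 h' j)]
  · rw [rj, Kb.jc_aa (h.restrictScalars ℝ), Kb.jc_aa (h'.restrictScalars ℝ)]
    exact congrArg star (e j i).symm

theorem rj_mul (J : Matrix (Fin n) (Fin k) ℂ) (J' : Matrix (Fin k) (Fin l) ℂ) :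
    rj (J * J') = rj J' * rj J := by
  have h := k1b'.jc_comp (φ := fun z : Cm k => (J *ᵥ z : Cm n))
    ((dfl J' 0).differentiableAt.restrictScalars ℝ) ((dfl J _).differentiableAt.restrictScalars ℝ)
  simp only [Matrix.mulVec_mulVec, Matrix.mulVec_zero] at h
  exact h

theorem rj_one : rj (1 : Matrix (Fin n) (Fin n) ℂ) = 1 := by
  simp only [rj, Matrix.one_mulVec, k1b'.jc_id]

theorem rj_zero : rj (0 : Matrix (Fin n) (Fin k) ℂ) = 0 := by
  ext a b
  simp only [rj, Matrix.zero_mulVec, jc, Matrix.of_apply, Ka.dr_const, Matrix.zero_apply]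

theorem pl_pl (J : Matrix (Fin n) (Fin k) ℂ) (J' : Matrix (Fin k) (Fin l) ℂ) (u : Fo n) :
    pl J' *ᵥ (pl J *ᵥ u) = pl (J * J') *ᵥ u := by
  rw [pl, pl, pl, rj_mul, f1a.lr_mul, Matrix.mulVec_mulVec]

theorem pl_one (u : Fo n) : pl (1 : Matrix (Fin n) (Fin n) ℂ) *ᵥ u = u := by
  rw [pl, rj_one, show lr 1 = 1 from lam_one, Matrix.one_mulVec]

theorem pl_ev (J : Matrix (Fin n) (Fin k) ℂ) : pl J *ᵥ ev ∅ = ev ∅ := f1a.lr_ev _

theorem pl_Lw (J : Matrix (Fin n) (Fin k) ℂ) (w : Matrix (Fin n) (Fin n) ℂ) (u : Fo n) :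
    pl J *ᵥ (Lw w *ᵥ u) = Lw (rs J w) *ᵥ (pl J *ᵥ u) := by
  have h := FibH.lr_Lw (dfl J 0).differentiableAt w
  rw [jm_lin] at h
  rw [Matrix.mulVec_mulVec, Matrix.mulVec_mulVec]
  exact congrArg (· *ᵥ u) h

theorem pl_pow (J : Matrix (Fin n) (Fin k) ℂ) (w : Matrix (Fin n) (Fin n) ℂ) (j : ℕ) (u : Fo n) :
    pl J *ᵥ (Lw w ^ j *ᵥ u) = Lw (rs J w) ^ j *ᵥ (pl J *ᵥ u) := by
  induction j with
  | zero => simp only [pow_zero, Matrix.one_mulVec]
  | succ j h => rw [pow_succ', pow_succ', ← Matrix.mulVec_mulVec, ← Matrix.mulVec_mulVec, pl_Lw, h]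

theorem top_add (u v : Fo k) : top (u + v) = top u + top v := mul_add _ _ _

theorem top_smul (c : ℂ) (u : Fo k) : top (c • u) = c * top u := mul_left_comm _ _ _

theorem top_sum {ι : Type} (s : Finset ι) (u : ι → Fo k) : top (∑ i ∈ s, u i) = ∑ i ∈ s, top (u i) := by
  simp only [top, Finset.sum_apply, Finset.mul_sum]

theorem top_pl (A : Matrix (Fin n) (Fin n) ℂ) (u : Fo n) :
    top (pl A *ᵥ u) = ((‖A.det‖ ^ 2 : ℝ) : ℂ) * top u := by
  have h := Kb.jc_hol (dfl A 0).differentiableAt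
  rw [show Matrix.of _ = A from jm_lin A 0] at h
  rw [top, top, pl, lr_top _ _ (by simp), show lr (rj A) Finset.univ Finset.univ = _ from lam_top _,
    rj, h, f1b.blk_det, Matrix.det_transpose,
    show (Aᵀ.map star).det = star A.det from Matrix.det_conjTranspose A, Complex.ofReal_pow,
    ← Complex.mul_conj', starRingEnd_apply]
  ring

theorem top_fc (W : Fo (p + d)) : kp ^ d * top (fc p d *ᵥ W) = top W := by
  have h := dual W (ev ∅)
  rw [f1a.lr_ev, Bq_ev, Bq_ev, Finset.compl_empty, Finset.compl_empty, sI, sI, Finset.prod_empty,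
    Finset.prod_empty] at h
  rw [top, top, pow_add]
  linear_combination kp ^ p * kp ^ d * h

theorem Lw_univ (w : Matrix (Fin 1) (Fin 1) ℂ) (u : Fo 1) :
    (Lw w *ᵥ u) Finset.univ = Complex.I * w 0 0 * u ∅ := by
  have e1 : ((Finset.univ : FI (1 + 1)).erase (hl 0)).erase (ah 0) = ∅ := by decide
  have e2 : ah 0 ∈ (Finset.univ : FI (1 + 1)).erase (hl 0) := by decide
  rw [Lw, Fin.sum_univ_one, Fin.sum_univ_one, Matrix.smul_mulVec, ← Matrix.mulVec_mulVec,
    Pi.smul_apply, eps_mulVec, if_pos (Finset.mem_univ _), eps_mulVec, if_pos e2, e1,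
    sg_min (by decide), sg_min (by decide), one_mul, one_mul, smul_eq_mul]

theorem top_one (w : Matrix (Fin 1) (Fin 1) ℂ) : top (Lw w *ᵥ ev ∅) = 2 * w 0 0 := by
  rw [top, Lw_univ, ev, Pi.single_eq_same, kp, sn]
  simp only [pow_one, Finset.range_one, Finset.prod_singleton, pow_zero]
  linear_combination (-2 * w 0 0) * Complex.I_mul_I

theorem lr_zero {a b : ℕ} (u : Fk b) : lr (0 : Matrix (Fin a) (Fin b) ℂ) *ᵥ u = u ∅ • ev ∅ := by
  induction u using F1aH.fk_ind with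
  | h0 => rw [f1a.lr_ev]; simp [ev]
  | he l u _ => simp [Matrix.mulVec_mulVec, f1a.lr_eps, eps_mulVec_empty, epsV]
  | ha u v h h' => rw [Matrix.mulVec_add, h, h', Pi.add_apply, add_smul]
  | hs c u h => rw [Matrix.mulVec_smul, h, Pi.smul_apply, smul_smul, smul_eq_mul]

/-- the last coordinate -/
def mQ (p : ℕ) : Matrix (Fin 1) (Fin (p + 1)) ℂ := (1 : Matrix _ _ ℂ).submatrix (Fin.natAdd p) id

/-- the hyperplane -/
def mR (p : ℕ) : Matrix (Fin (p + 1)) (Fin p) ℂ := (1 : Matrix _ _ ℂ).submatrix id (Fin.castAdd 1)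

theorem rj_sub (σ : Fin k → Fin n) : rj ((1 : Matrix _ _ ℂ).submatrix σ id) = AlgH.mt (bs σ) := by
  rw [← jc_coord σ 0, rj]
  congr 1
  ext z j
  simp [Matrix.mulVec, dotProduct, Matrix.one_apply]

theorem fc_vol (U : Fo (p + 1)) :
    fc p 1 *ᵥ (Lw (rs (mQ p) 1) *ᵥ U) = Complex.I • (pl (mR p) *ᵥ U) := by
  have h2 : AlgH.mt (b2 p 1) = rj (mQ p) := (rj_sub _).symm
  have h1 : rj (mR p) * AlgH.mt (b1 p 1) = 1 := by
    rw [← rj_sub, ← rj_mul, ← rj_one]
    congr 1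
    ext a b
    simp [mR, Matrix.mul_apply, Matrix.one_apply]
  have h3 : mQ p * mR p = 0 := by
    ext a b
    have h : Fin.natAdd p a ≠ Fin.castAdd 1 b := fun e => by
      have := congrArg Fin.val e
      simp only [Fin.val_natAdd, Fin.val_castAdd] at this
      omega
    simp [mR, mQ, Matrix.mul_apply, Matrix.one_apply, h]
  induction gen U with
  | base u =>
    have h4 := fc_lr (e1 (0 : Cm p) (0 : Cm 1)) (e2 0 0) (AlgH.mt (b2 p 1)) (Lw 1 *ᵥ u)
    rw [e2, h2, Lw_univ] at h4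
    rw [h2, show lr (rj (mQ p)) = pl (mQ p) from rfl, ← pl_Lw, pl_pl, h3, pl, pl, h4, rj_zero,
      lr_zero, smul_smul]
    simp [sn]
  | eps c _ ih =>
    have h4 : ∀ v, Lw (rs (mQ p) 1) * epsV v = epsV v * Lw (rs (mQ p) 1) := fun v => by
      simp only [epsV, Matrix.mul_sum, Matrix.sum_mul, Matrix.mul_smul, Matrix.smul_mul, F2bH.eps_L]
    rw [Matrix.mulVec_mulVec _ (Lw _), h4, ← Matrix.mulVec_mulVec,
      Matrix.mulVec_mulVec _ (fc p 1), fc_eps, ← Matrix.mulVec_mulVec, ih, pl,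
      Matrix.mulVec_mulVec _ (lr _) (epsV _), F1aH.lr_epsV, Matrix.mulVec_mulVec c, h1,
      Matrix.one_mulVec, ← Matrix.mulVec_mulVec, Matrix.mulVec_smul]
  | add _ _ e1 e2 => simp only [Matrix.mulVec_add, smul_add, e1, e2]
  | smul c _ e => simp only [Matrix.mulVec_smul, e, smul_comm c]

theorem rs_vec (A : Matrix (Fin n) (Fin k) ℂ) (b : Fin n → ℂ) :
    rs A (Matrix.vecMulVec b (star b)) = Matrix.vecMulVec (Aᵀ *ᵥ b) (star (Aᵀ *ᵥ b)) := by
  rw [rs, Matrix.mul_vecMulVec, Matrix.vecMulVec_mul, Matrix.star_mulVec]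
  rfl

/-- the product with a form of rank one is a restriction to a hyperplane -/
theorem rank1 {b : Fin (p + 1) → ℂ} (hb : b ≠ 0) : ∃ (E : Matrix (Fin (p + 1)) (Fin p) ℂ) (c : ℝ),
    0 < c ∧ Injective E.mulVecLin ∧
      ∀ U, top (Lw (Matrix.vecMulVec b (star b)) *ᵥ U) = c * top (pl E *ᵥ U) := by
  obtain ⟨M, hM⟩ := SeparatingDual.exists_continuousLinearEquiv_apply_eq (R := ℂ) hb
    (y := (mQ p)ᵀ *ᵥ fun _ => 1) fun h => by
      simpa [mQ, Matrix.mulVec, dotProduct, Matrix.one_apply] using congrFun h (Fin.natAdd p 0)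
  set A := (LinearMap.toMatrix' (M : (Fin (p + 1) → ℂ) →ₗ[ℂ] Fin (p + 1) → ℂ))ᵀ with hA
  have h1 : A.det ≠ 0 := by
    rw [hA, Matrix.det_transpose, LinearMap.det_toMatrix']
    exact M.toLinearEquiv.isUnit_det'.ne_zero
  have h2 : rs A (Matrix.vecMulVec b (star b)) = rs (mQ p) 1 := by
    rw [rs_vec, hA, Matrix.transpose_transpose, LinearMap.toMatrix'_mulVec,
      show (M : (Fin (p + 1) → ℂ) →ₗ[ℂ] Fin (p + 1) → ℂ) b = _ from hM, ← rs_vec]
    congr 1
    ext i j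
    simp [Matrix.one_apply, Subsingleton.elim i j, Matrix.vecMulVec_apply]
  have h3 : (0 : ℝ) < ‖A.det‖ ^ 2 := by positivity
  refine ⟨A * mR p, 2 / ‖A.det‖ ^ 2, by positivity, ?_, fun U => ?_⟩
  · rw [Matrix.mulVecLin_mul]
    refine (Matrix.mulVec_injective_iff_isUnit.2 ((Matrix.isUnit_iff_isUnit_det A).2
      h1.isUnit)).comp fun v v' h => funext fun i => ?_
    simpa [mR, Matrix.mulVec, dotProduct, Matrix.one_apply] using congrFun h (Fin.castAdd 1 i)
  · have h4 := top_pl A (Lw (Matrix.vecMulVec b (star b)) *ᵥ U)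
    rw [pl_Lw, h2, ← top_fc, fc_vol, pl_pl, top_smul, pow_one, kp] at h4
    rw [Complex.ofReal_div, div_mul_eq_mul_div, eq_div_iff (Complex.ofReal_ne_zero.2 h3.ne')]
    push_cast at h4 ⊢
    linear_combination -h4 - 2 * top (pl (A * mR p) *ᵥ U) * Complex.I_mul_I

theorem Lw_add (w w' : Matrix (Fin n) (Fin n) ℂ) : Lw (w + w') = Lw w + Lw w' := by
  simp only [Lw, Matrix.add_apply, mul_add, add_smul, Finset.sum_add_distrib]

theorem Lw_smul (c : ℂ) (w : Matrix (Fin n) (Fin n) ℂ) : Lw (c • w) = c • Lw w := by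
  simp only [Lw, Matrix.smul_apply, smul_eq_mul, Finset.smul_sum, smul_smul, mul_left_comm]

theorem Lw_zero : Lw (0 : Matrix (Fin n) (Fin n) ℂ) = 0 := by simp [Lw]

theorem Lw_sum {ι : Type} (s : Finset ι) (w : ι → Matrix (Fin n) (Fin n) ℂ) :
    Lw (∑ i ∈ s, w i) = ∑ i ∈ s, Lw (w i) := map_sum (AddMonoidHom.mk' Lw Lw_add) w s

theorem rs_psd (J : Matrix (Fin n) (Fin k) ℂ) {w : Matrix (Fin n) (Fin n) ℂ} (h : w.PosSemidef) :
    (rs J w).PosSemidef := h.mul_mul_conjTranspose_same Jᵀ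

theorem rs_dot (J : Matrix (Fin n) (Fin k) ℂ) (w : Matrix (Fin n) (Fin n) ℂ) (v : Cm k) :
    v ⬝ᵥ (rs J w *ᵥ star v) = (J *ᵥ v) ⬝ᵥ (w *ᵥ star (J *ᵥ v)) := by
  rw [rs, ← Matrix.mulVec_mulVec, ← Matrix.mulVec_mulVec, Matrix.dotProduct_mulVec,
    Matrix.vecMul_transpose, F1bH.star_mv]
  rfl

variable {u v : Fo n} {w : Matrix (Fin n) (Fin n) ℂ}

theorem WpP.pl (h : WpP u) (J : Matrix (Fin n) (Fin k) ℂ) : WpP (pl J *ᵥ u) := fun _ J' => by
  rw [pl_pl]
  exact h _ _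

theorem WpP.top (h : WpP u) : 0 ≤ top u := by simpa only [pl_one] using h n 1

theorem WpP.add (h : WpP u) (h' : WpP v) : WpP (u + v) := fun k J => by
  rw [Matrix.mulVec_add, top_add]
  exact add_nonneg (h k J) (h' k J)

theorem WpP.smul (h : WpP u) {c : ℝ} (hc : 0 ≤ c) : WpP ((c : ℂ) • u) := fun k J => by
  rw [Matrix.mulVec_smul, top_smul]
  exact mul_nonneg (Complex.zero_le_real.2 hc) (h k J)

theorem wp_zero : WpP (0 : Fo n) := fun k J => by simp [top]

theorem top_ev : top (ev ∅ : Fo 0) = 1 := by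
  simp [top, sn, ev, Finset.univ_eq_empty]

theorem wp_ev : WpP (ev ∅ : Fo n) := fun k J => by
  rw [pl_ev]
  cases k with
  | zero => rw [top_ev]; exact zero_le_one
  | succ k =>
    rw [top, ev, Pi.single_eq_of_ne (Finset.Nonempty.ne_empty ⟨hl 0, Finset.mem_univ _⟩), mul_zero]

theorem top_vec (h : WpP u) (b : Fin n → ℂ) : 0 ≤ top (Lw (Matrix.vecMulVec b (star b)) *ᵥ u) := by
  by_cases hb : b = 0
  · simp [hb, Lw_zero, top]
  · cases n with
    | zero => exact absurd (Subsingleton.elim _ _) hb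
    | succ p =>
      obtain ⟨E, c, h1, -, h2⟩ := rank1 hb
      rw [h2]
      exact mul_nonneg (Complex.zero_le_real.2 h1.le) (h _ _)

theorem WpP.Lw (h : WpP u) (hw : w.PosSemidef) : WpP (Lw w *ᵥ u) := fun k J => by
  obtain ⟨m, b, hb⟩ := Matrix.posSemidef_iff_eq_sum_vecMulVec.1 (rs_psd J hw)
  rw [pl_Lw, hb, Lw_sum, Matrix.sum_mulVec, top_sum]
  exact Finset.sum_nonneg fun i _ => top_vec (h.pl J) _

theorem WpP.pow (h : WpP u) (hw : w.PosSemidef) (j : ℕ) : WpP (P281Z.Hg.Lw w ^ j *ᵥ u) := by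
  induction j with
  | zero => rwa [pow_zero, Matrix.one_mulVec]
  | succ j ih => rw [pow_succ', ← Matrix.mulVec_mulVec]; exact ih.Lw hw

/-- contraction with the volume form of the fibre -/
theorem WpP.fc {U : Fo (p + d)} (h : WpP U) : WpP (kp ^ d • (fc p d *ᵥ U)) := fun k J => by
  have h1 : Differentiable ℂ fun w : Cm (k + d) => ap (J *ᵥ p1 k d w : Cm p) (p2 k d w) := by
    refine (PuF.cd_ap (𝕜 := ℂ) (n := 1)).differentiable one_ne_zero |>.comp
      (f := fun w => ((J *ᵥ p1 k d w : Cm p), p2 k d w)) (Differentiable.prodMk ?_ ?_)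
    · exact fun w => (dfl J _).differentiableAt.comp w
        (differentiableAt_pi.2 fun _ => differentiableAt_apply _ _)
    · exact differentiable_pi.2 fun _ => differentiable_apply _
  have h2 := alg.key p k d _ (fun t => (J *ᵥ t : Cm p)) 0 0 U ((h1 _).restrictScalars ℝ)
    ((dfl J 0).differentiableAt.restrictScalars ℝ) (.of_forall fun w => AlgH.p1_ap _ _)
  simp only [AlgH.p2_ap, k1b'.jc_id, Matrix.det_one, one_smul] at h2
  rw [Matrix.mulVec_smul, top_smul, Ps.pl, rj, ← h2, top_fc, jc_eq (h1 _)]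
  exact h _ _

/-- semipositive forms with null space in `N` -/
def SpP (w : Matrix (Fin n) (Fin n) ℂ) (N : Submodule ℂ (Cm n)) : Prop :=
  w.PosSemidef ∧ ∀ v, v ⬝ᵥ (w *ᵥ star v) = 0 → v ∈ N

theorem SpP.rs {N : Submodule ℂ (Cm n)} (h : SpP w N) (J : Matrix (Fin n) (Fin k) ℂ) :
    SpP (rs J w) (N.comap J.mulVecLin) :=
  ⟨rs_psd J h.1, fun v hv => h.2 _ (rs_dot J w v ▸ hv)⟩

theorem SpP.posDef (h : SpP w ⊥) : w.PosDef := .of_dotProduct_mulVec_pos h.1.1 fun x hx =>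
  (h.1.dotProduct_mulVec_nonneg x).lt_of_ne' fun e =>
    hx (star_eq_zero.1 (h.2 (star x) (by rwa [star_star])))

theorem spP_of (h : w.PosDef) : SpP w ⊥ := ⟨h.posSemidef, fun v hv => by
  by_contra k
  have := h.dotProduct_mulVec_pos (x := star v) fun e => k (star_eq_zero.1 e)
  rw [star_star, hv] at this
  exact lt_irrefl _ this⟩

/-- strict positivity -/
theorem top_pos : ∀ (n : ℕ) (a b : Matrix (Fin n) (Fin n) ℂ) (N : Submodule ℂ (Cm n)) (j k : ℕ),
    SpP a N → SpP b ⊥ → j + k = n → j + Module.finrank ℂ N ≤ n →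
    0 < top (Lw a ^ j *ᵥ (Lw b ^ k *ᵥ ev ∅)) := by
  intro n
  induction n with
  | zero =>
    intro a b N j k _ _ h _
    obtain ⟨rfl, rfl⟩ : j = 0 ∧ k = 0 := by omega
    rw [pow_zero, pow_zero, Matrix.one_mulVec, Matrix.one_mulVec, top_ev]
    exact zero_lt_one
  | succ p ih =>
    have key : ∀ (a b : Matrix (Fin (p + 1)) (Fin (p + 1)) ℂ) (N : Submodule ℂ (Cm (p + 1)))
        (j k : ℕ), SpP a N → SpP b ⊥ → j + k = p → j + Module.finrank ℂ N ≤ p →
        0 < top (Lw a ^ (j + 1) *ᵥ (Lw b ^ k *ᵥ ev ∅)) := by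
      intro a b N j k ha hb h h'
      obtain ⟨m, c, hc⟩ := Matrix.posSemidef_iff_eq_sum_vecMulVec.1 ha.1
      obtain ⟨i, hi⟩ : ∃ i, c i ≠ 0 := by
        by_contra k
        push Not at k
        rw [Submodule.eq_top_iff'.2 fun v => ha.2 v (by simp [hc, k]), finrank_top,
          Module.finrank_fin_fun] at h'
        omega
      have h1 := (wp_ev.pow hb.1 k).pow ha.1 j
      rw [pow_succ', ← Matrix.mulVec_mulVec]
      generalize hU : Lw a ^ j *ᵥ (Lw b ^ k *ᵥ ev ∅) = U at h1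
      rw [hc, Lw_sum, Matrix.sum_mulVec, top_sum]
      refine Finset.sum_pos' (fun i _ => top_vec h1 _) ⟨i, Finset.mem_univ _, ?_⟩
      obtain ⟨E, t, k1, k2, k3⟩ := rank1 hi
      rw [k3, ← hU, pl_pow, pl_pow, pl_ev]
      have k4 := hb.rs E
      rw [Submodule.comap_bot, LinearMap.ker_eq_bot.2 k2] at k4
      refine mul_pos (Complex.zero_lt_real.2 k1) (ih _ _ _ j k (ha.rs E) k4 h (le_trans ?_ h'))
      rw [add_le_add_iff_left, (Submodule.equivMapOfInjective _ k2 _).finrank_eq]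
      exact Submodule.finrank_mono (Submodule.map_comap_le _ _)
    intro a b N j k ha hb h h'
    cases j with
    | zero =>
      have h1 := key b b ⊥ p 0 hb hb rfl (by simp)
      rwa [pow_zero, Matrix.one_mulVec, show k = p + 1 by omega] at *
    | succ j => exact key a b N j k ha hb (by omega) (by omega)

end Vale.Agent.P280Z.Co.Ps
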