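import Vale.Agent.P287D.Zc.CoPu
import Vale.Agent.P280Z.Co.Defs
import Vale.Agent.P231.ChW.Tens

/-!
# P280Z: the differential graded algebra of smooth forms
-/

open scoped Manifold ContDiff Topology Matrix
open Set Filter
open Vale.Agent.P272.K Vale.Agent.P272.K.C2 Vale.Agent.P299.IX Vale.Agent.P299.IX.Fock Vale.Agent.P281Z
  Vale.Agent.P281Z.Hg Vale.Agent.P281Z.Hg.G2H Vale.Agent.P280Z.Pu
open Vale.Agent.P231.ChW (GDA)

noncomputable section

namespace Vale.Agent.P280Z.Co

section pt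
variable {k : ℕ}

theorem wg_wg (a b : Fk k) : wg (wg a *ᵥ b) = wg a * wg b := by
  induction a using F1aH.fk_ind with
  | h0 => rw [f1a.wg_ev, Matrix.one_mulVec, Matrix.one_mul]
  | he l u h => rw [f1a.wg_eps, ← Matrix.mulVec_mulVec, f1a.wg_eps, h, Matrix.mul_assoc]
  | ha u v h h' => rw [f1a.wg_add, Matrix.add_mulVec, f1a.wg_add, h, h', Matrix.add_mul]
  | hs c u h => rw [f1a.wg_smul, Matrix.smul_mulVec, f1a.wg_smul, h, Matrix.smul_mul]

theorem par_ev : (par : FM k) *ᵥ ev ∅ = ev ∅ := by rw [par, dgl_ev]; simp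

theorem par_eps' (l : Fin k) (u : Fk k) : par *ᵥ (eps l *ᵥ u) = -(eps l *ᵥ (par *ᵥ u)) := by
  rw [Matrix.mulVec_mulVec, par_eps, Matrix.neg_mulVec, Matrix.mulVec_mulVec]

theorem par_par (u : Fk k) : par *ᵥ (par *ᵥ u) = u := by
  rw [Matrix.mulVec_mulVec, par_sq, Matrix.one_mulVec]

theorem par_wg (a b : Fk k) : par *ᵥ (wg a *ᵥ b) = wg (par *ᵥ a) *ᵥ (par *ᵥ b) := by
  induction a using F1aH.fk_ind with
  | h0 => rw [par_ev, f1a.wg_ev, Matrix.one_mulVec, Matrix.one_mulVec]
  | he l u h =>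
    rw [f1a.wg_eps, ← Matrix.mulVec_mulVec, par_eps', h, par_eps', F1aH.wg_neg, f1a.wg_eps,
      Matrix.neg_mulVec, ← Matrix.mulVec_mulVec]
  | ha u v h h' =>
    rw [f1a.wg_add, Matrix.add_mulVec, Matrix.mulVec_add, h, h', Matrix.mulVec_add, f1a.wg_add,
      Matrix.add_mulVec]
  | hs c u h =>
    rw [f1a.wg_smul, Matrix.smul_mulVec, Matrix.mulVec_smul, h, Matrix.mulVec_smul, f1a.wg_smul,
      Matrix.smul_mulVec]

theorem wg_even {a : Fk k} (h : par *ᵥ a = a) (b : Fk k) : wg a *ᵥ b = wg b *ᵥ a := by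
  induction b using F1aH.fk_ind with
  | h0 => rw [f1a.wg_one, f1a.wg_ev, Matrix.one_mulVec]
  | he l u hu =>
    rw [f1a.wg_eps, ← Matrix.mulVec_mulVec, ← hu, Matrix.mulVec_mulVec, Matrix.mulVec_mulVec,
      f1a.eps_wg, h]
  | ha u v h1 h2 => rw [Matrix.mulVec_add, h1, h2, f1a.wg_add, Matrix.add_mulVec]
  | hs c u h1 => rw [Matrix.mulVec_smul, h1, f1a.wg_smul, Matrix.smul_mulVec]

theorem wg_odd {a : Fk k} (h : par *ᵥ a = -a) (b : Fk k) : wg a *ᵥ b = wg (par *ᵥ b) *ᵥ a := by
  induction b using F1aH.fk_ind with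
  | h0 => rw [f1a.wg_one, par_ev, f1a.wg_ev, Matrix.one_mulVec]
  | he l u hu =>
    rw [par_eps', F1aH.wg_neg, f1a.wg_eps, Matrix.neg_mulVec, ← Matrix.mulVec_mulVec, ← hu,
      Matrix.mulVec_mulVec, Matrix.mulVec_mulVec, f1a.eps_wg, h, F1aH.wg_neg, Matrix.neg_mul,
      Matrix.neg_mulVec, neg_neg]
  | ha u v h1 h2 =>
    rw [Matrix.mulVec_add, h1, h2, Matrix.mulVec_add, f1a.wg_add, Matrix.add_mulVec]
  | hs c u h1 => rw [Matrix.mulVec_smul, h1, Matrix.mulVec_smul, f1a.wg_smul, Matrix.smul_mulVec]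

theorem cjv_wg {d : ℕ} (a b : Fo d) : cjv (wg a *ᵥ b) = wg (cjv a) *ᵥ cjv b := by
  induction a using F1aH.fk_ind with
  | h0 => rw [f1b.cjv_ev, f1a.wg_ev, Matrix.one_mulVec, Matrix.one_mulVec]
  | he l u h =>
    rw [f1a.wg_eps, ← Matrix.mulVec_mulVec]
    induction l using Fin.addCases with
    | left j =>
      exact (f1b.cjv_hl _ j).trans (by
        rw [h, Matrix.mulVec_mulVec, ← f1a.wg_eps, ← f1b.cjv_hl]; rfl)
    | right j =>
      exact (f1b.cjv_ah _ j).trans (by
        rw [h, Matrix.mulVec_mulVec, ← f1a.wg_eps, ← f1b.cjv_ah]; rfl)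
  | ha u v h h' =>
    rw [f1a.wg_add, Matrix.add_mulVec, f1b.cjv_add, h, h', f1b.cjv_add, f1a.wg_add,
      Matrix.add_mulVec]
  | hs c u h =>
    rw [f1a.wg_smul, Matrix.smul_mulVec, f1b.cjv_smul, h, f1b.cjv_smul, f1a.wg_smul,
      Matrix.smul_mulVec]

end pt

variable {n m : ℕ}

/-- all smooth forms on `V` -/
def Om (V : Mf n) : Type := SF n V.X

instance (V : Mf n) : AddCommGroup (Om V) := inferInstanceAs (AddCommGroup (SF n V.X))

instance (V : Mf n) : Module ℂ (Om V) := inferInstanceAs (Module ℂ (SF n V.X))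

/-- the de Rham complex -/
def cx (V : Mf n) : Cx (SF n V.X) n := (gg2 n V.X).1.choose

theorem cx_real (V : Mf n) : RealX (cx V) := (gg2 n V.X).1.choose_spec.1

theorem cx_OK (V : Mf n) : (cx V).OK := (gg2 n V.X).1.choose_spec.2

variable {V : Mf n} {W : Mf m}

/-- the value of a form in a chart -/
def val (u : Om V) : Rw n V.X (Fo n) := vl (d := n) (M := V.X) u

theorem ext {u v : Om V} (h : ∀ e x, At e x → val u e (e x) = val v e (e x)) : u = v := ext' h

/-- exterior multiplication on the left -/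
def wo (u : Om V) : Module.End ℂ (SF n V.X) := ((gg1 n V.X).op _ ((gg1 n V.X).wed u)).choose

theorem wo_op (u : Om V) : IsOp (fun e z => wg (val u e z)) (wo u) :=
  ((gg1 n V.X).op _ ((gg1 n V.X).wed u)).choose_spec

instance : Mul (Om V) := ⟨fun u v => wo u v⟩

instance : One (Om V) := ⟨(gg1 n V.X).one.choose⟩

theorem isOne : IsOne (d := n) (M := V.X) (1 : Om V) := (gg1 n V.X).one.choose_spec

variable {e : Chart n V.X} {x : V.X}

theorem val_mul (u v : Om V) (h : At e x) :
    val (u * v) e (e x) = wg (val u e (e x)) *ᵥ val v e (e x) := wo_op u v e x h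

theorem val_one (h : At e x) : val (1 : Om V) e (e x) = ev ∅ := isOne e x h

theorem val_add (u v : Om V) (z : Cm n) : val (u + v) e z = val u e z + val v e z := rfl

theorem val_sub (u v : Om V) (z : Cm n) : val (u - v) e z = val u e z - val v e z := rfl

theorem val_neg (u : Om V) (z : Cm n) : val (-u) e z = -val u e z := rfl

theorem val_smul (c : ℂ) (u : Om V) (z : Cm n) : val (c • u) e z = c • val u e z := rfl

theorem val_zero (z : Cm n) : val (0 : Om V) e z = 0 := rfl

instance : Ring (Om V) :=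
  { (inferInstance : AddCommGroup (Om V)), (inferInstance : Mul (Om V)),
    (inferInstance : One (Om V)) with
    left_distrib := fun a b c => map_add (wo a) b c
    right_distrib := fun a b c => ext fun e x h => by
      rw [val_mul _ _ h, val_add, val_add, val_mul _ _ h, val_mul _ _ h, f1a.wg_add,
        Matrix.add_mulVec]
    zero_mul := fun a => ext fun e x h => by
      rw [val_mul _ _ h, val_zero, F1aH.wg_zero, Matrix.zero_mulVec]
    mul_zero := fun a => map_zero (wo a)
    mul_assoc := fun a b c => ext fun e x h => by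
      rw [val_mul _ _ h, val_mul _ _ h, val_mul _ _ h, val_mul _ _ h, wg_wg, Matrix.mulVec_mulVec]
    one_mul := fun a => ext fun e x h => by
      rw [val_mul _ _ h, val_one h, f1a.wg_ev, Matrix.one_mulVec]
    mul_one := fun a => ext fun e x h => by rw [val_mul _ _ h, val_one h, f1a.wg_one] }

instance : Algebra ℂ (Om V) :=
  Algebra.ofModule
    (fun c a b => ext fun e x h => by
      rw [val_mul _ _ h, val_smul, val_smul, val_mul _ _ h, f1a.wg_smul, Matrix.smul_mulVec])
    fun c a b => map_smul (wo a) c b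

instance : Algebra ℝ (Om V) := Algebra.compHom (Om V) (algebraMap ℝ ℂ)

theorem rsmul (c : ℝ) (u : Om V) : c • u = (c : ℂ) • u := rfl

instance : IsScalarTower ℝ ℂ (Om V) := ⟨fun a b u => mul_smul (a : ℂ) b u⟩

theorem ex_par : ∃ A : Module.End ℂ (SF n V.X), IsOp (fun _ _ => (par : Fm n)) A :=
  G1H.op _ ⟨fun _ _ _ => MC_const _ _, fun _ _ _ _ _ => par_lam _⟩

/-- the exterior derivative -/
def dO : Om V →ₗ[ℂ] Om V := (cx V).d

/-- the projector on the forms of degree `k` -/
def dgO (k : ℕ) : Om V →ₗ[ℂ] Om V := (cx V).dg k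

/-- the projector on the forms of holomorphic degree `k` -/
def pmO (k : ℕ) : Om V →ₗ[ℂ] Om V := (ex_pm (n := n) (X := V.X) k).choose

theorem val_d (u : Om V) (h : At e x) : val (dO u) e (e x) = dT (val u e) (e x) :=
  (cx_real V).d u e x h

theorem val_dg (k : ℕ) (u : Om V) (h : At e x) : val (dgO k u) e (e x) = dg k *ᵥ val u e (e x) :=
  (cx_real V).dg k u e x h

theorem pm_op (k : ℕ) : IsOp (d := n) (M := V.X) (fun _ _ => pm n k) (pmO (V := V) k) :=
  (ex_pm (n := n) (X := V.X) k).choose_spec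

theorem val_pm (k : ℕ) (u : Om V) (h : At e x) :
    val (pmO k u) e (e x) = pm n k *ᵥ val u e (e x) := pm_op k u e x h

/-- the grade involution as a linear map -/
def sgL : Om V →ₗ[ℂ] Om V := (ex_par (V := V)).choose

theorem val_par (u : Om V) (h : At e x) :
    val (sgL u) e (e x) = par *ᵥ val u e (e x) := ex_par.choose_spec u e x h

/-- the grade involution -/
def sgO : Om V →ₐ[ℂ] Om V :=
  AlgHom.ofLinearMap sgL
    (ext fun e x h => (val_par _ h).trans (by rw [val_one h, par_ev]))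
    fun a b => ext fun e x h => (val_par _ h).trans (by
      rw [val_mul _ _ h, par_wg]
      exact ((val_mul _ _ h).trans (by rw [val_par _ h, val_par _ h])).symm)

theorem val_sg (u : Om V) (h : At e x) : val (sgO u) e (e x) = par *ᵥ val u e (e x) := val_par u h

/-- complex conjugation -/
def cjO : Om V →+* Om V where
  toFun := (cx V).cj
  map_one' := ext fun e x h => ((cx_real V).cj _ e x h).trans (by
    rw [show vl (d := n) (M := V.X) (1 : Om V) e (e x) = _ from val_one h, f1b.cjv_ev, val_one h])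
  map_mul' a b := ext fun e x h => ((cx_real V).cj _ e x h).trans (by
    rw [show vl (d := n) (M := V.X) (a * b : Om V) e (e x) = _ from val_mul a b h, cjv_wg]
    exact ((val_mul _ _ h).trans (by
      rw [show val ((cx V).cj a) e (e x) = _ from (cx_real V).cj a e x h,
        show val ((cx V).cj b) e (e x) = _ from (cx_real V).cj b e x h]; rfl)).symm)
  map_zero' := map_zero (cx V).cj
  map_add' := map_add (cx V).cj

theorem val_cj (u : Om V) (h : At e x) : val (cjO u) e (e x) = cjv (val u e (e x)) :=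
  (cx_real V).cj u e x h

theorem cj_smul (c : ℂ) (u : Om V) : cjO (c • u) = star c • cjO u := map_smulₛₗ (cx V).cj c u

theorem cj_cj (u : Om V) : cjO (cjO u) = u := (cx_OK V).cjcj u

theorem cj_d (u : Om V) : cjO (dO u) = dO (cjO u) := (cx_OK V).cjd u

theorem dd (u : Om V) : dO (dO u) = 0 := (cx_OK V).dd u

theorem sg_sg (u : Om V) : sgO (sgO u) = u := ext fun e x h => by
  rw [val_sg _ h, val_sg _ h, par_par]

theorem d_mul (a b : Om V) : dO (a * b) = dO a * b + sgO a * dO b := ext fun e x h => by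
  have k := k1a f1a f1b
  rw [val_d _ h, val_add, val_mul _ _ h, val_mul _ _ h, val_d _ h, val_d _ h, val_sg _ h]
  exact (k.congr (ev_at h (Eventually.of_forall fun y hy => val_mul a b hy))).trans
    (k.leib (dif a h) (dif b h))

theorem d_sg (a : Om V) : dO (sgO a) = -sgO (dO a) := ext fun e x h => by
  have k := k1a f1a f1b
  rw [val_d _ h, val_neg, val_sg _ h, val_d _ h]
  have h1 := dg_dT k (A := -par) (B := par) (fun c => by
    rw [Matrix.neg_mul, par_eps, neg_neg]) (dif a h)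
  rw [Matrix.neg_mulVec] at h1
  exact (k.congr (ev_at h (Eventually.of_forall fun y hy => val_sg a hy))).trans h1.symm

instance : GDA (Om V) where
  d := (dO (V := V)).toAddMonoidHom
  sg := (sgO (V := V)).toRingHom
  sg_sg := sg_sg
  d_mul := d_mul
  d_sg := d_sg
  d_d := dd
  even a b h := ext fun e x he => by
    rw [val_mul _ _ he, val_mul _ _ he]
    exact wg_even ((val_sg a he).symm.trans (congrArg (fun u => val u e (e x)) h)) _
  odd a b h := ext fun e x he => by
    rw [val_mul _ _ he, val_mul _ _ he, show val (sgO.toRingHom b) e (e x) = _ from val_sg b he]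
    exact wg_odd ((val_sg a he).symm.trans (congrArg (fun u => val u e (e x)) h)) _

/-- the pull back as a linear map -/
def pbL {f : V.X → W.X} (hf : HolM n m f) : SF m W.X →ₗ[ℂ] SF n V.X :=
  (pp1 n V.X m W.X f (smo_of hf)).1.choose

theorem pbL_is {f : V.X → W.X} (hf : HolM n m f) : IsPb f (pbL hf) :=
  (pp1 n V.X m W.X f (smo_of hf)).1.choose_spec

/-- the pull back of forms -/
def pb {f : V.X → W.X} (hf : HolM n m f) : Om W →ₐ[ℂ] Om V :=
  AlgHom.ofLinearMap (pbL hf)
    (ext fun e x h => (((pp1 n V.X m W.X f (smo_of hf)).2.2.2 _ _ _ (pbL_is hf) (cx_real V)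
      (cx_real W)).2.2.2.1 _ isOne e x h).trans (val_one h).symm)
    fun a b => ((pp1 n V.X m W.X f (smo_of hf)).2.2.2 _ _ _ (pbL_is hf) (cx_real V)
      (cx_real W)).2.2.2.2.2 a _ _ (wo_op a) (wo_op _) b

theorem pb_is {f : V.X → W.X} (hf : HolM n m f) : IsPb (d := n) (d' := m) f (pb hf) := pbL_is hf

theorem pb_d {f : V.X → W.X} (hf : HolM n m f) (u : Om W) : pb hf (dO u) = dO (pb hf u) :=
  ((pp1 n V.X m W.X f (smo_of hf)).2.2.2 _ _ _ (pbL_is hf) (cx_real V) (cx_real W)).1 u

theorem pb_dg {f : V.X → W.X} (hf : HolM n m f) (k : ℕ) (u : Om W) :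
    pb hf (dgO k u) = dgO k (pb hf u) :=
  ((pp1 n V.X m W.X f (smo_of hf)).2.2.2 _ _ _ (pbL_is hf) (cx_real V) (cx_real W)).2.1 k u

theorem pb_cj {f : V.X → W.X} (hf : HolM n m f) (u : Om W) : pb hf (cjO u) = cjO (pb hf u) :=
  ((pp1 n V.X m W.X f (smo_of hf)).2.2.2 _ _ _ (pbL_is hf) (cx_real V) (cx_real W)).2.2.1 u

theorem pb_pmO {f : V.X → W.X} (hf : HolM n m f) (k : ℕ) (u : Om W) :
    pb hf (pmO k u) = pmO k (pb hf u) := pb_pm hf (pb_is hf) (pm_op k) (pm_op k) u

theorem pb_sg {f : V.X → W.X} (hf : HolM n m f) (u : Om W) : pb hf (sgO u) = sgO (pb hf u) :=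
  ext fun e x h => by
    have h' := Pb1H.ca (d := m) (f x)
    rw [val_sg _ h]
    refine (pb_is hf _ e _ x h h').trans ?_
    rw [show val (pb hf u) e (e x) = _ from pb_is hf u e _ x h h',
      show vl (d := m) (M := W.X) (sgO u) _ _ = _ from val_sg u h', Matrix.mulVec_mulVec,
      Matrix.mulVec_mulVec, f1a.lr_par]
    rfl

end Vale.Agent.P280Z.Co
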