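import Vale.Agent.P287D.Zc.CoSk

/-!
# P280Z: the fibre integral on forms and on classes
-/

open scoped Manifold ContDiff Topology Matrix
open Set Filter
open Vale.Agent.P272.K Vale.Agent.P299.IX Vale.Agent.P299.IX.Fock Vale.Agent.P281Z
  Vale.Agent.P281Z.Hg Vale.Agent.P280Z.Pu

noncomputable section

namespace Vale.Agent.P280Z.Co

variable {n m : ℕ} {V : Mf n} {W : Mf m} {f : V.X → W.X}

namespace PuhH
end PuhH
open PuhH

theorem PuhH.sub_le (hf : Sub n m f) (x : V.X) : ∃ d, n = m + d := by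
  have h := LinearMap.finrank_le_finrank_of_surjective
    (f := (df f (chartAt (Cm n) x) (chartAt (Cm m) (f x)) x).toLinearMap)
    (hf.sbm x _ _ (Pb1H.ca x) (Pb1H.ca (f x)))
  rw [Module.finrank_fin_fun, Module.finrank_fin_fun] at h
  exact Nat.exists_eq_add_of_le h

theorem PuhH.sub_dim (hf : Sub n m f) : IsEmpty V.X ∨ ∃ d, n = m + d :=
  (isEmpty_or_nonempty V.X).imp id fun ⟨x⟩ => sub_le hf x

theorem PuhH.om_zero (h : IsEmpty V.X) (u : Om V) : u = 0 := ext fun _ x _ => h.elim x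

theorem pushO_spec (hf : HolM n m f) {T : Om V →ₗ[ℂ] Om W}
    (hT : IsPush (n := n) (p := m) f T) (u : Om V) : pushO f u = kp ^ (n - m) • T u := by
  have h : ∃ T : SF n V.X →ₗ[ℂ] SF m W.X, IsPush f T := ⟨T, hT⟩
  rw [pushO, dif_pos h]
  exact congrArg (fun w : Om W => kp ^ (n - m) • w)
    (congrFun (IsPush.uniq (smo_of hf) h.choose_spec hT) u)

theorem PuhH.push_rep (hf : Sub n m f) {d : ℕ} (e : n = m + d) :
    ∃ T : Om V →ₗ[ℂ] Om W, IsPush (n := n) (p := m) f T ∧ ∀ u, pushO f u = kp ^ d • T u := by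
  obtain ⟨T, hT⟩ := push_ex e hf.hol hf.sbm
  refine ⟨T, hT, fun u => ?_⟩
  have h := pushO_spec (T := T) hf.hol hT u
  rwa [show n - m = d by omega] at h

theorem pushO_d (hf : Sub n m f) (u : Om V) : pushO f (dO u) = dO (pushO f u) := by
  rcases sub_dim hf with h | ⟨d, e⟩
  · rw [om_zero h u, map_zero, map_zero, map_zero]
  · obtain ⟨T, hT, h⟩ := push_rep hf e
    rw [h, h, map_smul]
    exact congrArg (fun w : Om W => kp ^ d • w)
      (hT.d (smo_of hf.hol) (cx_real V) (cx_real W) u)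

theorem pushO_dg (hf : Sub n m f) {d : ℕ} (e : n = m + d) (k : ℕ) (u : Om V) :
    pushO f (dgO (k + (d + d)) u) = dgO k (pushO f u) := by
  obtain ⟨T, hT, h⟩ := push_rep hf e
  rw [h, h, map_smul]
  exact congrArg (fun w : Om W => kp ^ d • w)
    (hT.dg e (smo_of hf.hol) (cx_real V) (cx_real W) k u)

theorem pushO_dg_lt (hf : Sub n m f) {d : ℕ} (e : n = m + d) {j : ℕ} (hj : j < d + d)
    (u : Om V) : pushO f (dgO j u) = 0 := by
  obtain ⟨T, hT, h⟩ := push_rep hf e
  rw [h, show T (dgO j u) = 0 from hT.dg_lt e (smo_of hf.hol) (cx_real V) hj u, smul_zero]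

theorem pushO_pm (hf : Sub n m f) {d : ℕ} (e : n = m + d) (k : ℕ) (u : Om V) :
    pushO f (pmO (k + d) u) = pmO k (pushO f u) := by
  obtain ⟨T, hT, h⟩ := push_rep hf e
  rw [h, h, map_smul]
  exact congrArg (fun w : Om W => kp ^ d • w)
    (hT.pm e hf.hol (pm_op (V := V) (k + d)) (pm_op (V := W) k) u)

theorem PuhH.star_kp : star kp = -kp := by simp [kp]

theorem pushO_cj (hf : Sub n m f) (u : Om V) : pushO f (cjO u) = cjO (pushO f u) := by
  rcases sub_dim hf with h | ⟨d, e⟩
  · rw [om_zero h u, map_zero, map_zero, map_zero]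
  · obtain ⟨T, hT, h⟩ := push_rep hf e
    have h1 : T (cjO u) = ((-1 : ℂ) ^ (n + m)) • cjO (T u) :=
      hT.cj (smo_of hf.hol) (cx_real V) (cx_real W) u
    rw [h, h, h1, cj_smul, smul_smul, star_pow, star_kp, show n + m = d + 2 * m by omega, pow_add,
      pow_mul, neg_one_sq, one_pow, mul_one, ← mul_pow, mul_neg_one]

theorem PuhH.sg_dg_eq (k : ℕ) (u : Om V) : sgO (dgO k u) = (-1 : ℂ) ^ k • dgO k u :=
  ext fun e x h => by
    rw [val_sg _ h, val_smul, val_dg _ _ h]
    funext I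
    rw [par, dgl_mulVec, Pi.smul_apply, dg_mulVec, smul_eq_mul]
    split_ifs with hI
    · rw [hI]
    · rw [mul_zero, mul_zero]

theorem PuhH.dg_sum (u : Om V) : ∑ k ∈ Finset.range (n + n + 1), dgO k u = u := by
  have h := LinearMap.congr_fun (cx_OK V).dg_sum u
  exact (LinearMap.sum_apply _ (fun k => dgO (V := V) k) u).symm.trans h

theorem pushO_sg (hf : Sub n m f) (u : Om V) : pushO f (sgO u) = sgO (pushO f u) := by
  rcases sub_dim hf with h | ⟨d, e⟩
  · rw [om_zero h u, map_zero, map_zero, map_zero]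
  · rw [← dg_sum u, map_sum, map_sum, map_sum, map_sum]
    refine Finset.sum_congr rfl fun k _ => ?_
    rw [sg_dg_eq, map_smul]
    rcases lt_or_ge k (d + d) with hk | hk
    · rw [pushO_dg_lt hf e hk, smul_zero, map_zero]
    · obtain ⟨j, rfl⟩ := Nat.exists_eq_add_of_le' hk
      rw [pushO_dg hf e, sg_dg_eq, pow_add, ← two_mul, pow_mul, neg_one_sq, one_pow, mul_one]

theorem intO_push (hf : Sub n m f) (u : Om V) : intO (pushO f u) = intO u := by
  rcases sub_dim hf with h | ⟨d, e⟩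
  · rw [om_zero h u, map_zero, map_zero, map_zero]
  · obtain ⟨T, hT, h⟩ := push_rep hf e
    have h1 := hT.int (smo_of hf.hol) (isOne (V := V)) (isOne (V := W)) u
    rw [h, map_smul, intO_eq, intO_eq, smul_eq_mul, mul_assoc, mul_assoc, h1, ← mul_assoc,
      ← pow_add, show d + m = n by omega]

theorem pushO_mul (hf : Sub n m f) (y : Om W) (u : Om V) :
    pushO f (pb hf.hol y * u) = y * pushO f u := by
  rcases sub_dim hf with h | ⟨d, e⟩
  · rw [om_zero h u, mul_zero, map_zero, mul_zero]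
  · obtain ⟨T, hT, h⟩ := push_rep hf e
    rw [h, h, mul_smul_comm]
    exact congrArg (fun w : Om W => kp ^ d • w)
      (hT.wed (smo_of hf.hol) (pb_is hf.hol) (wo_op y) (wo_op (pb hf.hol y)) u)

theorem pushO_id (u : Om V) : pushO (V := V) (W := V) (fun x => x) u = u := by
  have h := pushO_spec (V := V) (W := V) (f := fun x => x) (T := LinearMap.id) contMDiff_id
    push_id u
  rwa [Nat.sub_self, pow_zero, one_smul] at h

theorem pushO_comp {l : ℕ} {Z : Mf l} {g : W.X → Z.X} (hf : Sub n m f) (hg : Sub m l g)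
    (u : Om V) : pushO (fun x => g (f x)) u = pushO g (pushO f u) := by
  rcases isEmpty_or_nonempty V.X with h | ⟨⟨x⟩⟩
  · rw [om_zero h u, map_zero, map_zero, map_zero]
  · obtain ⟨d, e⟩ := sub_le hf x
    obtain ⟨d', e'⟩ := sub_le hg (f x)
    obtain ⟨T, hT, h⟩ := push_rep hf e
    obtain ⟨T', hT', h'⟩ := push_rep hg e'
    have h1 := pushO_spec (f := fun x => g (f x)) (T := T'.comp T) (hg.hol.comp hf.hol)
      (IsPush.comp (smo_of hf.hol) (smo_of hg.hol) hT hT') u
    rw [h1, h', h, map_smul, smul_smul, ← pow_add, show n - l = d' + d by omega]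
    rfl

theorem pushO_bc {n' m' : ℕ} {V' : Mf n'} {W' : Mf m'} {g : W'.X → W.X} {f' : V'.X → W'.X}
    {g' : V'.X → V.X} (c : Cart f g f' g') (u : Om V) :
    pb c.hg (pushO f u) = pushO f' (pb c.hg' u) := by
  rcases sub_dim c.sf with h | ⟨d, e⟩
  · rw [om_zero h u, map_zero, map_zero, map_zero, map_zero]
  · have e' : n' = m' + d := by
      have := c.dim
      omega
    obtain ⟨T, hT, h⟩ := push_rep c.sf e
    obtain ⟨T', hT', h'⟩ := push_rep c.sf' e'
    rw [h, h', map_smul]
    exact congrArg (fun w : Om W' => kp ^ d • w)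
      (push_bc e e' c.sf.hol c.sf.sbm c.sf'.hol c.sf'.sbm c.hg c.hg' c.comm
        (fun y x k => c.uniq y x k.symm) hT hT' (pb_is c.hg) (pb_is c.hg') u)

theorem good_push (hf : Sub n m f) : Good (pushO f) where
  z u h := ⟨by rw [← pushO_d hf, h.1, map_zero], by rw [← pushO_sg hf, h.2.1],
    by rw [← pushO_cj hf, h.2.2]⟩
  b := by
    rintro _ ⟨β, rfl⟩
    exact ⟨_, (pushO_d hf β).symm⟩

theorem tyF_push (hf : Sub n m f) {u : Om V} (hu : TyF u) : TyF (pushO f u) := fun k => by
  rcases sub_dim hf with h | ⟨d, e⟩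
  · rw [om_zero h u, map_zero, map_zero, map_zero]
  · rw [← pushO_dg hf e, ← pushO_pm hf e, show k + k + (d + d) = k + d + (k + d) by omega, hu]

/-- the fibre integral of closed even real forms -/
def pushZ (hf : Sub n m f) : Zc V →ₗ[ℝ] Zc W := (good_push hf).res

theorem fm_pushZ (hf : Sub n m f) (u : Zc V) : fm (pushZ hf u) = pushO f (fm u) := rfl

theorem push_mk (hf : Sub n m f) (u : Zc V) : desc (pushO f) (mk u) = mk (pushZ hf u) :=
  desc_mk (good_push hf) rfl

/-- the component of degree `k` of a closed even real form -/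
def PuhH.dgZ (k : ℕ) : Zc V →ₗ[ℝ] Zc V := (good_dg k).res

theorem PuhH.fm_dgZ (k : ℕ) (u : Zc V) : fm (dgZ k u) = dgO k (fm u) := rfl

theorem PuhH.prH_mk (k : ℕ) (u : Zc V) : prH V k (mk u) = mk (dgZ (k + k) u) := pr_mk k rfl

/-- **row PUH** -/
theorem pu : ct.Pu where
  deg {n m V W f} hf d e k a := by
    obtain ⟨u, rfl⟩ := mk_surj a
    change prH W k (desc (pushO f) (mk u)) = desc (pushO f) (prH V (k + d) (mk u))
    rw [push_mk hf, prH_mk, prH_mk, push_mk hf]
    refine congrArg mk (fm_inj ?_)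
    rw [fm_dgZ, fm_pushZ, fm_pushZ, fm_dgZ, ← pushO_dg hf e,
      show k + k + (d + d) = k + d + (k + d) by omega]
  proj {n m V W f} hf a b := by
    obtain ⟨u, rfl⟩ := mk_surj a
    obtain ⟨y, rfl⟩ := mk_surj b
    change desc (pushO f) (mk u * pullH hf.hol (mk y)) = desc (pushO f) (mk u) * mk y
    rw [pullH_mk, ← map_mul, push_mk hf, push_mk hf, ← map_mul, mul_comm u, mul_comm _ y]
    refine congrArg mk (fm_inj ?_)
    rw [fm_pushZ, map_mul fm, map_mul fm, fm_pushZ, fm_pbZ, pushO_mul hf]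
  int {n m V W f} hf a := by
    obtain ⟨u, rfl⟩ := mk_surj a
    change intH W (desc (pushO f) (mk u)) = intH V (mk u)
    rw [push_mk hf, intH_mk, intH_mk, fm_pushZ, intO_push hf]
  id {n} V a := by
    obtain ⟨u, rfl⟩ := mk_surj a
    have h : Good (pushO (V := V) (W := V) fun x => x) :=
      ⟨fun u h => by rwa [pushO_id], fun u h => by rwa [pushO_id]⟩
    exact desc_mk h (pushO_id _).symm
  comp {n m l V W Z f g} hf hg a := by
    obtain ⟨u, rfl⟩ := mk_surj a
    change desc (pushO fun x => g (f x)) (mk u) = desc (pushO g) (desc (pushO f) (mk u))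
    have h : Good (pushO (V := V) (W := Z) fun x => g (f x)) :=
      ⟨fun u h => by
        rw [pushO_comp hf hg]
        exact (good_push hg).z _ ((good_push hf).z _ h), fun u h => by
        rw [pushO_comp hf hg]
        exact (good_push hg).b _ ((good_push hf).b _ h)⟩
    rw [push_mk hf, push_mk hg]
    exact desc_mk h (pushO_comp hf hg _).symm
  bc {n m n' m' V W V' W' f g f' g'} c a := by
    obtain ⟨u, rfl⟩ := mk_surj a
    change pullH c.hg (desc (pushO f) (mk u)) = desc (pushO f') (pullH c.hg' (mk u))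
    rw [push_mk c.sf, pullH_mk, pullH_mk, push_mk c.sf']
    refine congrArg mk (fm_inj ?_)
    rw [fm_pbZ, fm_pushZ, fm_pushZ, fm_pbZ, pushO_bc c]

end Vale.Agent.P280Z.Co
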