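import Vale.Agent.P287D.Zc.CoPuM
import Vale.Agent.P280Z.Co.PuA

/-!
# P280, fibre integration: the final statements
-/

open scoped Manifold ContDiff Topology Matrix
open Set Filter MeasureTheory
open Vale.Agent.P272.K Vale.Agent.P272.K.INT Vale.Agent.P299.IX Vale.Agent.P299.IX.Fock
  Vale.Agent.P281Z.Hg Vale.Agent.P281Z.Hg.G1H Vale.Agent.P281Z.Hg.G2H
open Vale.Agent.P281Z.Hg.Pb1H (ca)
open Vale.Agent.P281Z (HolM Sbm)

noncomputable section

namespace Vale.Agent.P280Z.Pu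

section alg
variable {a b k : ℕ}

/-- the adjoint of exterior multiplication -/
theorem Bq_wg (y u v : Fk k) : Bq (wg y *ᵥ u) v = Bq u (wg (dgl sn *ᵥ y) *ᵥ v) := by
  induction y using F1aH.fk_ind generalizing u v with
  | h0 => rw [dgl_ev, Finset.card_empty, sn, Finset.range_zero, Finset.prod_empty, one_smul,
      f1a.wg_ev, Matrix.one_mulVec, Matrix.one_mulVec]
  | he l y h =>
    have e : (dgl fun m => sn (m + 1) : FM k) = par * dgl sn := by
      rw [par, dgl_mul]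
      exact congrArg dgl (funext fun m => by rw [sn, Finset.prod_range_succ, mul_comm]; rfl)
    rw [f1a.wg_eps, ← Matrix.mulVec_mulVec, f1a.Bq_eps, h, Matrix.mulVec_mulVec _ (dgl sn),
      dgl_eps, e, ← Matrix.mulVec_mulVec, f1a.wg_eps, f1a.eps_wg, Matrix.mulVec_mulVec _ par,
      ← Matrix.mul_assoc, par_sq, Matrix.one_mul, Matrix.mulVec_mulVec]
  | ha y y' h h' => rw [f1a.wg_add, Matrix.mulVec_add, f1a.wg_add, Matrix.add_mulVec,
      Matrix.add_mulVec, Bq_add_l, Bq_add_r, h, h']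
  | hs c y h => rw [f1a.wg_smul, Matrix.mulVec_smul, f1a.wg_smul, Matrix.smul_mulVec,
      Matrix.smul_mulVec, Bq_smul_l, Bq_smul_r, h]

/-- block diagonal matrices preserve the types -/
theorem pm_lr {J : Matrix (Fin (a + a)) (Fin (b + b)) ℂ} (h1 : ∀ i j, J (ah i) (hl j) = 0)
    (h2 : ∀ i j, J (hl i) (ah j) = 0) (u : Fo b) (k : ℕ) :
    pm a k *ᵥ (lr J *ᵥ u) = lr J *ᵥ (pm b k *ᵥ u) := by
  have e1 : ∀ j, epsV (fun r => J r (hl j)) = ∑ i, J (hl i) (hl j) • eps (hl i) := fun j => by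
    rw [epsV, Fin.sum_univ_add]
    exact add_eq_left.2 (Finset.sum_eq_zero fun i _ => (congrArg (· • _) (h1 i j)).trans
      (zero_smul _ _))
  have e2 : ∀ j, epsV (fun r => J r (ah j)) = ∑ i, J (ah i) (ah j) • eps (ah i) := fun j => by
    rw [epsV, Fin.sum_univ_add]
    exact add_eq_right.2 (Finset.sum_eq_zero fun i _ => (congrArg (· • _) (h2 i j)).trans
      (zero_smul _ _))
  have e3 : ∀ l (v : Fo b), lr J *ᵥ (eps l *ᵥ v) = epsV (fun r => J r l) *ᵥ (lr J *ᵥ v) :=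
    fun l v => by rw [Matrix.mulVec_mulVec, f1a.lr_eps, ← Matrix.mulVec_mulVec]
  induction u using F1aH.fk_ind generalizing k with
  | h0 =>
    have e : ∀ n, pm n k *ᵥ ev ∅ = (if 0 = k then (1 : ℂ) else 0) • ev ∅ := fun n => by
      ext K
      rw [mulVec_ev, pm, Pi.smul_apply, ev, Pi.single_apply, Matrix.diagonal_apply]
      by_cases hK : K = ∅
      · simp [hK, tp]
      · simp [hK]
    rw [f1a.lr_ev, e, e, Matrix.mulVec_smul, f1a.lr_ev]
  | he l u h =>
    induction l using AlgH.idx with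
    | h1 j =>
      rw [e3, e1, Matrix.mulVec_mulVec _ (pm a k), Matrix.mulVec_mulVec _ (pm b k), Finset.mul_sum]
      cases k with
      | zero => simp only [Matrix.mul_smul, f1b.pm0_hl, smul_zero, Finset.sum_const_zero,
          Matrix.zero_mulVec, Matrix.mulVec_zero]
      | succ k =>
        simp only [Matrix.mul_smul, f1b.pm_hl, ← Matrix.smul_mul, ← Finset.sum_mul]
        rw [← Matrix.mulVec_mulVec, ← Matrix.mulVec_mulVec, h, e3, e1]
    | h2 j =>
      rw [e3, e2, Matrix.mulVec_mulVec _ (pm a k), Matrix.mulVec_mulVec _ (pm b k), Finset.mul_sum]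
      simp only [Matrix.mul_smul, f1b.pm_ah, ← Matrix.smul_mul, ← Finset.sum_mul]
      rw [← Matrix.mulVec_mulVec, ← Matrix.mulVec_mulVec, h, e3, e2]
  | ha u v h h' => simp only [Matrix.mulVec_add, h, h']
  | hs c u h => simp only [Matrix.mulVec_smul, h]

theorem pm_jc {ψ : Cm a → Cm b} {z : Cm a} (h : DifferentiableAt ℂ ψ z) (u : Fo b) (k : ℕ) :
    pm a k *ᵥ (lr (jc ψ z) *ᵥ u) = lr (jc ψ z) *ᵥ (pm b k *ᵥ u) := by
  have h1 : ∀ j, DifferentiableAt ℂ (fun y => ψ y j) z := differentiableAt_pi.1 h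
  refine pm_lr (fun i j => ?_) (fun i j => ?_) u k
  · simp only [jc, dr, cx, hl, ah, Matrix.of_apply, Fin.addCases_left, Fin.addCases_right]
    exact dzb_of_holo (h1 j) i
  · simp only [jc, dr, cx, hl, ah, Matrix.of_apply, Fin.addCases_left, Fin.addCases_right]
    exact (C2.dz_conj i ((h1 j).restrictScalars ℝ)).trans (by rw [dzb_of_holo (h1 j), map_zero])

theorem sn_star (m : ℕ) : star (sn m) = sn m := by simp [sn]

end alg

variable {n p : ℕ} {X Y : Type} [TopologicalSpace X] [ChartedSpace (Cm n) X] [T2Space X]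
  [CompactSpace X] [IsManifold 𝓘(ℂ, Cm n) ω X] [TopologicalSpace Y] [ChartedSpace (Cm p) Y]
  [T2Space Y] [CompactSpace Y] [IsManifold 𝓘(ℂ, Cm p) ω Y] {f : X → Y} {T : SF n X → SF p Y}
  {C : Cx (SF n X) n} {D : Cx (SF p Y) p}

/-- **existence of the fibre integral** -/
theorem push_ex {d : ℕ} (e : n = p + d) (hf : HolM n p f) (hs : ∀ x, Sbm n p f x) :
    ∃ T : SF n X →ₗ[ℂ] SF p Y, IsPush f T := by
  subst e
  exact ex_of alg hf hs

/-- the value at `y` depends only on the values on the fibre over `y` -/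
theorem push_zp {d : ℕ} (e : n = p + d) (hf : HolM n p f) (hs : ∀ x, Sbm n p f x)
    (hT : IsPush f T) {u : SF n X} {y : Y} (hu : ∀ x, f x = y → u ∈ ZP x) : T u ∈ ZP y := by
  subst e
  exact zp_of alg hf hs hT hu

/-- **base change** -/
theorem push_bc {d n' p' : ℕ} {X' Y' : Type} [TopologicalSpace X'] [ChartedSpace (Cm n') X']
    [T2Space X'] [CompactSpace X'] [IsManifold 𝓘(ℂ, Cm n') ω X'] [TopologicalSpace Y']
    [ChartedSpace (Cm p') Y'] [T2Space Y'] [CompactSpace Y'] [IsManifold 𝓘(ℂ, Cm p') ω Y']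
    {f' : X' → Y'} {g : Y' → Y} {g' : X' → X} (e : n = p + d) (e' : n' = p' + d)
    (hf : HolM n p f) (hs : ∀ x, Sbm n p f x) (hf' : HolM n' p' f') (hs' : ∀ x, Sbm n' p' f' x)
    (hg : HolM p' p g) (hg' : HolM n' n g') (hc : ∀ x, f (g' x) = g (f' x))
    (hb : ∀ y x, f x = g y → ∃! x', f' x' = y ∧ g' x' = x) {T' : SF n' X' → SF p' Y'}
    {P : SF p Y → SF p' Y'} {P' : SF n X → SF n' X'} (hT : IsPush f T) (hT' : IsPush f' T')
    (hP : IsPb g P) (hP' : IsPb g' P') (u : SF n X) : P (T u) = T' (P' u) := by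
  subst e e'
  exact bc_of alg hf hs hf' hs' (smo_of hg) hg' hc hb hT hT' hP hP' u

theorem cx_ok (hC : RealX C) : C.OK := ok f1a f1b (k1a f1a f1b) (gg1 n X) hC

/-- the fibre integral commutes with `d` -/
theorem IsPush.d (hf : Smo n p f) (hT : IsPush f T) (hC : RealX C) (hD : RealX D) (u : SF n X) :
    T (C.d u) = D.d (T u) := hT.eq hf fun P hP v => by
  have h := hT P hP u (D.d v)
  rw [((pp1 n X p Y f hf).2.2.2 P C D hP hC hD).1] at h
  simp only [Qi_eq hC, Qi_eq hD, (cx_ok hC).Qd, (cx_ok hD).Qd] at h ⊢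
  linear_combination -h

/-- degrees -/
theorem IsPush.dg {d : ℕ} (e : n = p + d) (hf : Smo n p f) (hT : IsPush f T) (hC : RealX C)
    (hD : RealX D) (k : ℕ) (u : SF n X) : T (C.dg (k + (d + d)) u) = D.dg k (T u) :=
  hT.eq hf fun P hP v => by
    simp only [Qi_eq hC, Qi_eq hD]
    rcases le_or_gt k (p + p) with h | h
    · have h1 := hT P hP u (D.dg (p + p - k) v)
      rw [((pp1 n X p Y f hf).2.2.2 P C D hP hC hD).2.1, Qi_eq hC, Qi_eq hD] at h1
      rw [(cx_ok hD).Qdg k (p + p - k) _ _ (by omega), (cx_ok hC).Qdg _ (p + p - k) _ _ (by omega),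
        h1]
    · rw [(cx_ok hD).dg_zero k h, (cx_ok hC).dg_zero _ (by omega)]
      simp

theorem IsPush.dg_lt {d : ℕ} (e : n = p + d) (hf : Smo n p f) (hT : IsPush f T) (hC : RealX C)
    {j : ℕ} (hj : j < d + d) (u : SF n X) : T (C.dg j u) = 0 := hT.eq hf fun P hP v => by
  obtain ⟨D, hD, -⟩ := (gg2 p Y).1
  obtain ⟨⟨L, hL⟩, hu, -, h⟩ := pp1 n X p Y f hf
  rw [Qi_eq hC, Qi_eq hD, (cx_ok hC).Qdg j (n + n - j) _ _ (by omega), ← (h P C D hP hC hD).2.1,
    (cx_ok hD).dg_zero _ (by omega), hu _ _ hP hL]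
  simp

/-- conjugation -/
theorem IsPush.cj (hf : Smo n p f) (hT : IsPush f T) (hC : RealX C) (hD : RealX D) (u : SF n X) :
    T (C.cj u) = ((-1 : ℂ) ^ (n + p)) • D.cj (T u) := hT.eq hf fun P hP v => by
  have h := congrArg star (hT P hP u (D.cj v))
  rw [star_mul', star_mul', sn_star, sn_star, Qi_eq hC, Qi_eq hD] at h
  have e : (-1 : ℂ) ^ p * (-1) ^ p = 1 := by rw [← mul_pow, neg_mul_neg, one_mul, one_pow]
  rw [← (cx_ok hD).cjcj v, ((pp1 n X p Y f hf).2.2.2 P C D hP hC hD).2.2.1, Qi_eq hC, Qi_eq hD,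
    map_smul, LinearMap.smul_apply, (cx_ok hC).Qcj, (cx_ok hD).Qcj, smul_eq_mul, pow_add]
  linear_combination (-1) ^ n * h + (-1) ^ n * sn p * star (D.Q (T u) (D.cj v)) * e

/-- the projection formula -/
theorem IsPush.wed (hf : Smo n p f) (hT : IsPush f T) {P : SF p Y → SF n X} (hP : IsPb f P)
    {y : SF p Y} {W' : SF p Y → SF p Y} {W : SF n X → SF n X}
    (h' : IsOp (fun e z => wg (vl y e z)) W') (h : IsOp (fun e z => wg (vl (P y) e z)) W)
    (u : SF n X) : T (W u) = W' (T u) := hT.eq hf fun P' hP' v => by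
  obtain rfl := pb_uniq hf hP hP'
  obtain ⟨R, hR⟩ := (gg1 p Y).op (fun _ _ => dgl sn) ⟨fun _ _ _ => MC_const _ _,
    fun _ _ _ _ _ => dgl_lam _ _⟩
  obtain ⟨V, hV⟩ := (gg1 p Y).op _ ((gg1 p Y).wed (R y))
  have hV' : ∀ v e x, At e x → vl (V v) e (e x) = wg (dgl sn *ᵥ vl y e (e x)) *ᵥ vl v e (e x) :=
    fun v e x he => (hV v e x he).trans (congrArg (fun w => wg w *ᵥ _) (hR y e x he))
  have h1 : Qi (W' (T u)) v = Qi (T u) (V v) := itg_congr fun e x he => by
    rw [h' _ e x he, Bq_wg, hV' _ e x he]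
  have h2 : Qi (W u) (P v) = Qi u (P (V v)) := itg_congr fun e x he => by
    rw [h _ e x he, Bq_wg, hP y e _ x he (ca _), hP v e _ x he (ca _), hP (V v) e _ x he (ca _),
      hV' _ _ _ (ca _), Matrix.mulVec_mulVec _ (lr _), f1a.lr_wg,
      Matrix.mulVec_mulVec _ (lr _), ← F1aH.dgl_lr, ← Matrix.mulVec_mulVec, ← Matrix.mulVec_mulVec]
  rw [h1, h2, hT P hP]

/-- Fubini -/
theorem IsPush.int (hf : Smo n p f) (hT : IsPush f T) {o : SF n X} {o' : SF p Y} (h : IsOne o)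
    (h' : IsOne o') (u : SF n X) : sn p * Qi (T u) o' = sn n * Qi u o := by
  obtain ⟨P, hP⟩ := (pp1 n X p Y f hf).1
  rw [hT P hP, show P o' = o from ext' fun e x he => by
    rw [hP o' e _ x he (ca _), h' _ _ (ca _), f1a.lr_ev, h e x he]]

/-- composition -/
theorem IsPush.comp {q : ℕ} {Z : Type} [TopologicalSpace Z] [ChartedSpace (Cm q) Z] [T2Space Z]
    [CompactSpace Z] [IsManifold 𝓘(ℂ, Cm q) ω Z] {g : Y → Z} {T' : SF p Y → SF q Z}
    (hf : Smo n p f) (hg : Smo p q g) (hT : IsPush f T) (hT' : IsPush g T') :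
    IsPush (fun x => g (f x)) fun u => T' (T u) := fun P hP u v => by
  obtain ⟨A, hA⟩ := (pp1 n X p Y f hf).1
  obtain ⟨B, hB⟩ := (pp1 p Y q Z g hg).1
  rw [hT' B hB, hT A hA, pb_uniq (Pb1H.smo_comp hf hg) hP (pb_comp hf hg hA hB)]

theorem push_id : IsPush (id : X → X) (id : SF n X → SF n X) := fun P hP u v => by
  rw [pb_uniq Pb1H.smo_id hP (pbc n X n X f1a k1b').1]
  rfl

omit [T2Space X] [CompactSpace X] [T2Space Y] [CompactSpace Y] in
/-- holomorphic pull-backs preserve the types -/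
theorem pb_pm (hf : HolM n p f) {P : SF p Y → SF n X} (hP : IsPb f P) {k : ℕ}
    {A : SF n X → SF n X} {B : SF p Y → SF p Y} (hA : IsOp (fun _ _ => pm n k) A)
    (hB : IsOp (fun _ _ => pm p k) B) (v : SF p Y) : P (B v) = A (P v) := ext' fun e x he => by
  rw [hA _ e x he, hP _ e _ x he (ca _), hP _ e _ x he (ca _), hB _ _ _ (ca _),
    pm_jc (((hl_of hf).hol e _ x he (ca _)).differentiableAt (by simp))]

omit [T2Space X] [CompactSpace X] in
theorem ex_pm (k : ℕ) : ∃ A : Module.End ℂ (SF n X), IsOp (fun _ _ => pm n k) A :=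
  G1H.op _ ⟨fun _ _ _ => MC_const _ _, fun e e' x he he' => by
    rw [jt_eq k1b' he he']
    exact f1b.pm_blk _ _ k⟩

/-- types -/
theorem IsPush.pm {d : ℕ} (e : n = p + d) (hf : HolM n p f) (hT : IsPush f T) {k : ℕ}
    {A : SF n X → SF n X} {B : SF p Y → SF p Y} (hA : IsOp (fun _ _ => pm n (k + d)) A)
    (hB : IsOp (fun _ _ => pm p k) B) (u : SF n X) : T (A u) = B (T u) :=
  hT.eq (smo_of hf) fun P hP v => by
    rcases le_or_gt k p with h | h
    · obtain ⟨A', hA'⟩ := ex_pm (n := n) (X := X) (p - k)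
      obtain ⟨B', hB'⟩ := ex_pm (n := p) (X := Y) (p - k)
      have h1 : Qi (B (T u)) v = Qi (T u) (B' v) := itg_congr fun e x he => by
        rw [hB _ e x he, hB' _ e x he, f1b.Bq_pm _ _ k (p - k) (by omega)]
      have h2 : Qi (A u) (P v) = Qi u (A' (P v)) := itg_congr fun e x he => by
        rw [hA _ e x he, hA' _ e x he, f1b.Bq_pm _ _ (k + d) (p - k) (by omega)]
      rw [h1, h2, hT P hP, pb_pm hf hP hA' hB']
    · obtain ⟨Q, hQ⟩ := exQ n X
      obtain ⟨Q', hQ'⟩ := exQ p Y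
      rw [show B (T u) = 0 from ext' fun e x he => by
          rw [hB _ e x he, f1b.pm_zero p k h, Matrix.zero_mulVec, vl_zero],
        show A u = 0 from ext' fun e x he => by
          rw [hA _ e x he, f1b.pm_zero n _ (by omega), Matrix.zero_mulVec, vl_zero], hQ, hQ']
      simp

end Vale.Agent.P280Z.Pu
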