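import Vale.Agent.P280Z.Co.PuB
import Vale.Agent.P280Z.Co.PuF
import Vale.Agent.P281Z.Hg.Pb2
import Vale.Agent.P281Z.Defs

/-!
# P280, fibre integration: passage to the maximal atlas, existence and base change
-/

open scoped Manifold ContDiff Topology Matrix
open Set Filter MeasureTheory
open Vale.Agent.P272.K Vale.Agent.P272.K.INT Vale.Agent.P299.IX Vale.Agent.P299.IX.Fock
  Vale.Agent.P281Z.Hg Vale.Agent.P281Z.Hg.G1H Vale.Agent.P281Z.Hg.G2H
open Vale.Agent.P281Z.Hg.Pb1H (ca near lc_comp)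
open Vale.Agent.P281Z (HolM Sbm df)
open Vale.Agent.P281.H152.K (exists_prodChart)

noncomputable section

namespace Vale.Agent.P280Z.Pu

section hl
variable {a b c : ℕ} {X Y Z : Type} [TopologicalSpace X] [ChartedSpace (Cm a) X]
  [TopologicalSpace Y] [ChartedSpace (Cm b) Y] [TopologicalSpace Z] [ChartedSpace (Cm c) Z]
  {f : X → Y} {g : Y → Z}

theorem Hl.comp (hg : Hl b c g) (hf : Hl a b f) : Hl a c fun x => g (f x) :=
  ⟨hg.cont.comp hf.cont, fun e e' x k k' => by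
    refine ContDiffAt.congr_of_eventuallyEq ?_ (lc_comp hf.cont k (ca (d := b) (f x)))
    refine ContDiffAt.comp (g := fun w => e' (g ((chartAt (Cm b) (f x)).symm w))) (e x) ?_
      (hf.hol e _ x k (ca (f x)))
    rw [e.left_inv k.2]
    exact hg.hol _ e' _ (ca (f x)) k'⟩

variable [IsManifold 𝓘(ℂ, Cm a) ω X] [IsManifold 𝓘(ℂ, Cm b) ω Y]

theorem hl_of (h : HolM a b f) : Hl a b f := ⟨ContMDiff.continuous h, fun e e' x he he' =>
  contMDiffAt_iff_contDiffAt.1 (ContMDiffAt.comp (e x) (g := e')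
    (by rw [e.left_inv he.2]; exact chart_contMDiffAt he') (ContMDiffAt.comp (e x) (g := f) (h _)
      (chart_symm_contMDiffAt he.1 (e.map_source he.2))))⟩

/-- holomorphic maps are smooth -/
theorem smo_of (h : HolM a b f) : Smo a b f := (hl_of h).smo

omit [IsManifold 𝓘(ℂ, Cm a) ω X] [IsManifold 𝓘(ℂ, Cm b) ω Y] in
theorem mfd_surj (h : HolM a b f) {x : X} (hs : Sbm a b f x) :
    Function.Surjective (mfderiv 𝓘(ℂ, Cm a) 𝓘(ℂ, Cm b) f x) := by
  have e : mfderiv 𝓘(ℂ, Cm a) 𝓘(ℂ, Cm b) f x =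
      df f (chartAt (Cm a) x) (chartAt (Cm b) (f x)) x := by
    refine ((h x).mdifferentiableAt (by simp)).mfderiv.trans ?_
    simp [writtenInExtChartAt, df, Function.comp_def]
    rfl
  rw [e]
  exact hs _ _ (ca _) (ca _)

end hl

/-- the same manifold with the maximal atlas -/
def Mx (_ : ℕ) (X : Type) : Type := X

section mx
variable {n : ℕ} {X : Type} [TopologicalSpace X]

local instance mxT : TopologicalSpace (Mx n X) := inferInstanceAs (TopologicalSpace X)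

local instance mxH [T2Space X] : T2Space (Mx n X) := inferInstanceAs (T2Space X)

local instance mxC [CompactSpace X] : CompactSpace (Mx n X) := inferInstanceAs (CompactSpace X)

variable [ChartedSpace (Cm n) X] [IsManifold 𝓘(ℂ, Cm n) ω X]

local instance mxA : ChartedSpace (Cm n) (Mx n X) where
  atlas := IsManifold.maximalAtlas 𝓘(ℂ, Cm n) ω X
  chartAt := chartAt (Cm n) (M := X)
  mem_chart_source := mem_chart_source (Cm n) (M := X)
  chart_mem_atlas := IsManifold.chart_mem_maximalAtlas (M := X)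

local instance mxM : IsManifold 𝓘(ℂ, Cm n) ω (Mx n X) where
  compatible h h' := IsManifold.compatible_of_mem_maximalAtlas (M := X) h h'

variable (n X) in
/-- the identity -/
def idh : Mx n X ≃ₜ X := Homeomorph.refl X

theorem at_mx {e : Chart n X} {x : X} (h : At e x) :
    @At n (Mx n X) inferInstance inferInstance e x :=
  ⟨IsManifold.subset_maximalAtlas (M := X) h.1, h.2⟩

theorem hl_to : Hl n n (idh n X) := ⟨(idh n X).continuous, fun _ _ _ k k' =>
  transition_contDiffAt (X := Mx n X) k (at_mx k')⟩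

theorem hl_from : Hl n n (idh n X).symm := ⟨(idh n X).symm.continuous, fun _ _ _ k k' =>
  transition_contDiffAt (X := Mx n X) (at_mx k) k'⟩

variable [T2Space X] [CompactSpace X]

variable (n X) in
theorem ex_mx : ∃ E : SF n X ≃ₗ[ℂ] SF n (Mx n X), IsPb (idh n X) E ∧ IsPb (idh n X).symm E.symm ∧
    ∀ a b, Qi (E a) (E b) = Qi a b := by
  obtain ⟨C, hC, -⟩ := (gg2 n X).1
  obtain ⟨C', hC', -⟩ := (gg2 n (Mx n X)).1
  obtain ⟨E, h1, h2, h3⟩ := pb2 f1a k1b' (gg1 n (Mx n X)) (gg1 n X) (pp1 _ _ _ _) (pp1 _ _ _ _)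
    (idh n X) C' C hl_to.smo hl_from.smo (fun x => ⟨chartAt (Cm n) x, chartAt (Cm n) (M := X) x,
      ca x, ca (M := X) x, by
        have e : (fun z => chartAt (Cm n) (M := X) x (idh n X ((chartAt (Cm n) x).symm z))) =ᶠ[𝓝
            (chartAt (Cm n) x x)] id := (chartAt (Cm n) x).eventually_right_inverse
          ((chartAt (Cm n) x).map_source (mem_chart_source _ x))
        rw [e.fderiv_eq, fderiv_id]
        simp [ContinuousLinearMap.det]⟩) hC' hC
  exact ⟨E, h1, h2, fun a b => by rw [Qi_eq hC', Qi_eq hC, h3.Q]⟩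

end mx

attribute [local instance] mxT mxH mxC mxA mxM

section tr
variable {n p : ℕ} {X Y : Type} [TopologicalSpace X] [ChartedSpace (Cm n) X] [T2Space X]
  [CompactSpace X] [IsManifold 𝓘(ℂ, Cm n) ω X] [TopologicalSpace Y] [ChartedSpace (Cm p) Y]
  [T2Space Y] [CompactSpace Y] [IsManifold 𝓘(ℂ, Cm p) ω Y] {f : X → Y}

/-- composition of pull-backs -/
theorem pb_comp {q : ℕ} {Z : Type} [TopologicalSpace Z] [ChartedSpace (Cm q) Z]
    [IsManifold 𝓘(ℂ, Cm q) ω Z] {g : Y → Z} (hf : Smo n p f) (hg : Smo p q g)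
    {T : SF p Y → SF n X} {T' : SF q Z → SF p Y} (h : IsPb f T) (h' : IsPb g T') :
    IsPb (fun x => g (f x)) fun u => T (T' u) :=
  ((pbc n X p Y f1a k1b').2.2 q Z f g hf hg).2 T T' h h'

theorem pb_uniq (hf : Smo n p f) {T T' : SF p Y → SF n X} (h : IsPb f T) (h' : IsPb f T') :
    T = T' := (pp1 n X p Y f hf).2.1 T T' h h'

theorem push_mx (hf : Hl n p f) {E : SF n X ≃ₗ[ℂ] SF n (Mx n X)} (h1 : IsPb (idh n X) E)
    (h3 : ∀ a b, Qi (E a) (E b) = Qi a b) {T : SF n X → SF p Y} :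
    IsPush f T ↔ IsPush (fun x => f (idh n X x)) fun u => T (E.symm u) := by
  refine ⟨fun h P hP u v => ?_, fun h P hP u v => ?_⟩
  · obtain ⟨P₀, hP₀⟩ := (pp1 n X p Y f hf.smo).1
    rw [h P₀ hP₀, ← h3, E.apply_symm_apply,
      pb_uniq (hf.comp hl_to).smo hP (pb_comp hl_to.smo hf.smo h1 hP₀)]
  · have h2 := h _ (pb_comp hl_to.smo hf.smo h1 hP) (E u) v
    simpa only [E.symm_apply_apply, h3] using h2

end tr

/-- the splitting of the coordinates -/
def sph (p d : ℕ) : (Cm p × Cm d) ≃ₜ Cm (p + d) where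
  toFun q := ap q.1 q.2
  invFun w := (p1 p d w, p2 p d w)
  left_inv _ := Prod.ext (p1_ap _ _) (p2_ap _ _)
  right_inv := ap_p
  continuous_toFun := (PuF.cd_ap (𝕜 := ℂ) (n := 0)).continuous
  continuous_invFun := PuF.cont_p1.prodMk PuF.cont_p2

variable {p p' d : ℕ} {X Y X' Y' : Type} [TopologicalSpace X] [ChartedSpace (Cm (p + d)) X]
  [IsManifold 𝓘(ℂ, Cm (p + d)) ω X] [TopologicalSpace Y] [ChartedSpace (Cm p) Y]
  [IsManifold 𝓘(ℂ, Cm p) ω Y] {f : X → Y}

theorem full_mx (hf : HolM (p + d) p f) (hs : ∀ x, Sbm (p + d) p f x) :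
    Full p d fun x => f (idh (p + d) X x) := by
  intro χ x hx
  obtain ⟨c, c1, c2⟩ := exists_prodChart (d := d) hf hx.1 hx.2 (mfd_surj hf (hs _))
  have h1 : ContDiff ℂ ω fun w : Cm (p + d) => (p1 p d w, p2 p d w) :=
    (contDiff_pi.2 fun _ => contDiff_apply ℂ ℂ _).prodMk (contDiff_pi.2 fun _ => contDiff_apply ℂ ℂ _)
  refine ⟨c.transHomeomorph (sph p d), c1, hx.1,
    OpenPartialHomeomorph.mem_maximalAtlas_of_contMDiffOn (M := X) _
      (PuF.cd_ap.contMDiff.comp_contMDiffOn c2.hol)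
      (c2.symm_hol.comp h1.contMDiff.contMDiffOn fun w hw => hw), fun y hy => ?_⟩
  exact ⟨(c2.fst y hy).1, (p1_ap _ _).trans (c2.fst y hy).2⟩

variable [T2Space X] [CompactSpace X] [T2Space Y] [CompactSpace Y]

theorem ex_of (hA : StALG) (hf : HolM (p + d) p f) (hs : ∀ x, Sbm (p + d) p f x) :
    ∃ T : SF (p + d) X →ₗ[ℂ] SF p Y, IsPush f T := by
  obtain ⟨E, h1, -, h3⟩ := ex_mx (p + d) X
  obtain ⟨T, hT⟩ := ex_full (fub_of hA) ((hl_of hf).comp hl_to).smo (full_mx hf hs)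
  refine ⟨T.comp E.toLinearMap, (push_mx (hl_of hf) h1 h3).2 ?_⟩
  simpa only [LinearMap.comp_apply, LinearEquiv.coe_coe, E.apply_symm_apply] using hT

theorem zp_of (hA : StALG) (hf : HolM (p + d) p f) (hs : ∀ x, Sbm (p + d) p f x)
    {T : SF (p + d) X → SF p Y} (hT : IsPush f T) {u : SF (p + d) X} {y : Y}
    (hu : ∀ x, f x = y → u ∈ ZP x) : T u ∈ ZP y := by
  obtain ⟨E, h1, -, h3⟩ := ex_mx (p + d) X
  have h := ((push_mx (hl_of hf) h1 h3).1 hT).zp (fub_of hA) ((hl_of hf).comp hl_to).smo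
    (full_mx hf hs) (u := E u) fun x hx => IsPb_zp h1 (hu _ hx)
  rwa [E.symm_apply_apply] at h

variable [TopologicalSpace X'] [ChartedSpace (Cm (p' + d)) X'] [TopologicalSpace Y']
  [ChartedSpace (Cm p') Y'] [T2Space X'] [CompactSpace X'] [IsManifold 𝓘(ℂ, Cm (p' + d)) ω X']
  [T2Space Y'] [CompactSpace Y'] [IsManifold 𝓘(ℂ, Cm p') ω Y'] {f' : X' → Y'} {g : Y' → Y}
  {g' : X' → X}

theorem bc_of (hA : StALG) (hf : HolM (p + d) p f) (hs : ∀ x, Sbm (p + d) p f x)
    (hf' : HolM (p' + d) p' f') (hs' : ∀ x, Sbm (p' + d) p' f' x) (hg : Smo p' p g)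
    (hg' : HolM (p' + d) (p + d) g') (hc : ∀ x, f (g' x) = g (f' x))
    (hb : ∀ y x, f x = g y → ∃! x', f' x' = y ∧ g' x' = x) {T : SF (p + d) X → SF p Y}
    {T' : SF (p' + d) X' → SF p' Y'} {P : SF p Y → SF p' Y'} {P' : SF (p + d) X → SF (p' + d) X'}
    (hT : IsPush f T) (hT' : IsPush f' T') (hP : IsPb g P) (hP' : IsPb g' P')
    (u : SF (p + d) X) : P (T u) = T' (P' u) := by
  obtain ⟨E, h1, h2, h3⟩ := ex_mx (p + d) X
  obtain ⟨E', k1, -, k3⟩ := ex_mx (p' + d) X'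
  have a1 := (hl_of hg').comp (hl_to (n := p' + d) (X := X'))
  have h := bc_full (fub_of hA) (cov_of hA) ((hl_of hf).comp hl_to).smo
    ((hl_of hf').comp hl_to).smo (full_mx hf hs) (full_mx hf' hs') hg (hl_from.comp a1) hc hb
    ((push_mx (hl_of hf) h1 h3).1 hT) ((push_mx (hl_of hf') k1 k3).1 hT') hP
    (pb_comp a1.smo hl_from.smo (pb_comp hl_to.smo (smo_of hg') k1 hP') h2) (E u)
  simpa only [E.symm_apply_apply, E'.symm_apply_apply] using h

end Vale.Agent.P280Z.Pu
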