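import Vale.Agent.P287D.Zc.CoCt

/-!
# P280Z: rows of the block Co
-/

open scoped Manifold ContDiff Topology Matrix ComplexOrder
open Set Filter
open Vale.Agent.P272.K Vale.Agent.P281Z Vale.Agent.P281Z.Hg Vale.Agent.P285.H281.FD
open Vale.Agent.P231.ChW (GDA Ev ch)

noncomputable section

namespace Vale.Agent.P280Z.Co

/-- row C1E: metrics exist, the Chern form of every metric represents `c1H` -/
def C1E : Prop := ∀ {n : ℕ} (V : Mf n) (L : Bd V.X), IsLB n L → (∃ ψ, IsMet n L ψ) ∧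
  ∀ ψ, IsMet n L ψ → ∃ u : Zc V, IsC1 L ψ (fm u) ∧ c1H V L = mk u

/-- row NE: on a Kähler manifold closed forms orthogonal to all closed forms are exact -/
def NE : Prop := ∀ {n : ℕ} (V : Mf n), V.Kah → ∀ u : Om V, dO u = 0 →
  (∀ v : Om V, dO v = 0 → intO (u * v) = 0) → Ex u

/-- row DDB: exact real `(1,1)` forms have a potential -/
def DDB : Prop := ∀ {n : ℕ} (V : Mf n), V.Kah → ∀ (w : Rw n V.X (Matrix (Fin n) (Fin n) ℂ))
  (u : Om V), IsW w u → (∀ e x, At e x → (w e (e x)).IsHermitian) → Ex u →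
  ∃ φ : V.X → ℝ, SmoothFn (n := n) φ ∧
    ∀ e x, At e x → w e (e x) = cHess (fun z => φ (e.symm z)) (e x)

/-- row TRG: isomorphic idempotents have cohomologous Chern character forms -/
def TRG : Prop := ∀ (A : Type) [Ring A] [Algebra ℂ A] [GDA A],
  (∀ (c : ℂ) (a : A), GDA.d (c • a) = c • GDA.d a) → (∀ (c : ℂ) (a : A), GDA.sg (c • a) = c • GDA.sg a) →
  ∀ (α β : Type) [Fintype α] [DecidableEq α] [Fintype β] [DecidableEq β] (a : Matrix β α A)
    (b : Matrix α β A), Ev a → Ev b → a * b * a = a → b * a * b = b → ∀ k,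
    ∃ t : A, GDA.d t = ch k (b * a) - ch k (a * b)

/-- row REP: smooth functions are forms, every bundle is the image of an idempotent matrix -/
def REP : Prop := (∀ {n : ℕ} (V : Mf n) (a : V.X → ℂ),
    (∀ x, SmAt n (fun y => (Matrix.of fun _ _ => a y : Matrix Unit Unit ℂ)) x) →
    ∃ u : Om V, IsFn a u) ∧
  ∀ {n : ℕ} (V : Mf n) (E : VB V.X), IsVB n E →
    ∃ (N : ℕ) (P : Matrix (Fin N) (Fin N) (Om V)), Rep E P

/-- row PSE: every idempotent matrix representing `E` computes `psH` -/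
def PSE : Prop := ∀ {n : ℕ} (V : Mf n) (E : VB V.X) (N : ℕ) (P : Matrix (Fin N) (Fin N) (Om V))
  (k : ℕ), IsVB n E → Rep E P → ∃ u : Zc V, psH V E k = mk u ∧
    Ex (fm u - (Complex.I / (2 * Real.pi)) ^ k • ch k P)

/-- row LN1: the first Chern class of a line bundle as a vector bundle, and of a determinant -/
def LN1 : Prop := ∀ {n : ℕ} (V : Mf n) (E : VB V.X) (L : Bd V.X) (a : E.ι → L.ι), IsVB n E →
  IsLB n L → (∀ i, E.U i ⊆ L.U (a i)) → (∀ i j x, x ∈ E.U i → x ∈ E.U j → ∀ m,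
    E.b j x = (E.b i x).comp (Matrix.toLin' m) → m.det = L.g (a i) (a j) x) →
  psH V E 1 = c1H V L

/-- the assembly -/
theorem coh_of (rg : ct.Rg) (pu : ct.Pu) (c1 : ct.C1) (pl : ct.PL) (eff : ct.EFF) (bez : ct.BEZ)
    (kp : ct.KP) (po : ct.Po) (tp : ct.Tp) (ho : ct.Ho) (ch : ct.Ch) : COH :=
  ⟨ct, ⟨rg, pu, c1, pl, eff, bez, kp, po, tp, ho, ch⟩⟩

end Vale.Agent.P280Z.Co
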