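import Vale.Agent.P287D.Zc.LatSk

/-!
# P301, block LAT: the Kähler package of a compact Kähler manifold, basic facts
-/

open scoped Manifold ContDiff ComplexOrder Topology Matrix
open Vale.Agent.P272.K Vale.Agent.P299.IX Vale.Agent.P299.IX.Fock
open Vale.Agent.P281Z (Mf)
open Vale.Agent.P281Z.Hg

noncomputable section

namespace Vale.Agent.P301Z.Lat

variable {d : ℕ}

/-- the localisation with the norm of `K` -/
def lcK (V : Mf d) (K : KP (dR V)) : LC V.X (dR V) := ⟨ZP, oneF V, K.nrm⟩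

/-- everything about the Kähler package `K` of the metric `w` -/
structure Pack (V : Mf d) (w : Fld V) (K : KP (dR V)) : Prop where
  kah : IsKahler w
  rk : RealK w K
  ok : K.OK
  kia : K.KIa
  kib : K.KIb
  kh : K.KH
  l2 : IsL2 K.nrm
  eok : letI := ms V; (lcK V K).OK
  lb : letI := ms V; ∀ m, ∃ (n : ℕ) (b : Fin n → Fs V), (lcK V K).LB m b
  per : letI := ms V; ∀ m, PER V.X m
  r1 : letI := ms V; ∀ m, (lcK V K).R1 m ∧ (lcK V K).U2 m
  i1 : letI := ms V; ∀ m, (lcK V K).I1 m ∧ (lcK V K).U1 m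

theorem ext_F {V : Mf d} {u v : Fs V} (h : ∀ e x, At e x → vl u e (e x) = vl v e (e x)) : u = v :=
  (g1T d V.X).ext u v fun x =>
    ⟨chartAt (Cm d) x, ⟨chart_mem_atlas _ x, mem_chart_source _ x⟩,
      h _ x ⟨chart_mem_atlas _ x, mem_chart_source _ x⟩⟩

theorem at_chart {V : Mf d} (x : V.X) : At (chartAt (Cm d) x) x :=
  ⟨chart_mem_atlas _ x, mem_chart_source _ x⟩

theorem one_eq {V : Mf d} {u : Fs V} (h : IsOne u) : u = oneF V :=
  ext_F fun e x hx => (h e x hx).trans (oneF_spec V e x hx).symm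

theorem exists_pack (V : Mf d) {w : Fld V} (hw : IsKahler w) : ∃ K : KP (dR V), Pack V w K := by
  letI := ms V
  obtain ⟨X, K, E, hX, hK, hok, hE, heo, hl2, hlb⟩ := rows.one d V.X w hw
  obtain rfl := dR_eq V hX
  have hEq : E = lcK V K := by
    obtain ⟨Z, one, nrm⟩ := E
    obtain ⟨h1, h2, h3⟩ := hE
    have e1 : Z = ZP := funext h1
    have e2 : one = oneF V := one_eq h2
    have e3 : nrm = K.nrm := h3
    subst e1 e2 e3
    rfl
  subst hEq
  obtain ⟨ha, hb, hh, -⟩ := rows.ab _ _ _ K hok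
  exact ⟨K, hw, hK, hok, ha, hb, hh, hl2, heo, hlb,
    fun m => vt3 vt1 V.X m (vt2' V.X (ulcg d V.X) m), fun m => Vale.Agent.P281Z.Hg.zr vt1 _ _ _ V.X _ heo m,
    fun m => zi' _ _ _ V.X _ heo m⟩

theorem intF_iff (V : Mf d) (K : KP (dR V)) (m : ℕ) (u : Fs V) :
    (letI := ms V; (lc V).IsInt m u) ↔ (letI := ms V; (lcK V K).IsInt m u) := by
  letI := ms V
  constructor
  · rintro ⟨ε, hε, a, γ, h0, h1, h2, h3⟩
    exact ⟨ε, hε, a, γ, h0, h1, h2, h3⟩
  · rintro ⟨ε, hε, a, γ, h0, h1, h2, h3⟩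
    exact ⟨ε, hε, a, γ, h0, h1, h2, h3⟩

section forms
variable {V : Mf d} {u v : Fs V}

theorem Cl2.add (hu : Cl2 V u) (hv : Cl2 V v) : Cl2 V (u + v) :=
  ⟨by rw [map_add, hu.1, hv.1, add_zero], by rw [map_add, hu.2, hv.2]⟩

theorem Cl2.smul (c : ℂ) (hu : Cl2 V u) : Cl2 V (c • u) :=
  ⟨by rw [map_smul, hu.1, smul_zero], by rw [map_smul, hu.2]⟩

theorem Cl2.sub (hu : Cl2 V u) (hv : Cl2 V v) : Cl2 V (u - v) :=
  ⟨by rw [map_sub, hu.1, hv.1, sub_zero], by rw [map_sub, hu.2, hv.2]⟩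

theorem Cl2.zero : Cl2 V 0 := ⟨map_zero _, map_zero _⟩

theorem Cl2.sum {ι : Type} (s : Finset ι) {f : ι → Fs V} (h : ∀ i ∈ s, Cl2 V (f i)) :
    Cl2 V (∑ i ∈ s, f i) :=
  ⟨by rw [map_sum]; exact Finset.sum_eq_zero fun i hi => (h i hi).1,
    by rw [map_sum]; exact Finset.sum_congr rfl fun i hi => (h i hi).2⟩

theorem Cl2.cj (hu : Cl2 V u) : Cl2 V ((dR V).cj u) :=
  ⟨by rw [← (dR_ok V).cjd, hu.1, map_zero], by rw [← (dR_ok V).cjdg, hu.2]⟩

theorem Cl2.dg (hu : Cl2 V u) {e : Chart d V.X} {x : V.X} (hx : At e x) :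
    dg 2 *ᵥ vl u e (e x) = vl u e (e x) := by
  rw [← (dR_real V).dg 2 u e x hx, hu.2]

theorem Ex2.of_d (hu : (dR V).dg 2 u = u) {β : Fs V} (h : u = (dR V).d β) : Ex2 V u := by
  refine ⟨(dR V).dg 1 β, ?_, ?_⟩
  · have := congrArg (fun T : Module.End ℂ (Fs V) => T β) ((dR_ok V).dg_mul 1 1)
    simpa using this
  · have := congrArg (fun T : Module.End ℂ (Fs V) => T β) ((dR_ok V).dg_d 1)
    simp only [Module.End.mul_apply] at this
    rw [← this, ← h, hu]

theorem Ex2.cl (hu : Ex2 V u) : Cl2 V u := by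
  obtain ⟨β, h1, rfl⟩ := hu
  refine ⟨(dR_ok V).dd β, ?_⟩
  have := congrArg (fun T : Module.End ℂ (Fs V) => T β) ((dR_ok V).dg_d 1)
  simp only [Module.End.mul_apply] at this
  rw [this, h1]

theorem Ex2.add (hu : Ex2 V u) (hv : Ex2 V v) : Ex2 V (u + v) := by
  obtain ⟨β, h1, rfl⟩ := hu
  obtain ⟨γ, h2, rfl⟩ := hv
  exact ⟨β + γ, by rw [map_add, h1, h2], by rw [map_add]⟩

theorem Ex2.smul (c : ℂ) (hu : Ex2 V u) : Ex2 V (c • u) := by
  obtain ⟨β, h1, rfl⟩ := hu
  exact ⟨c • β, by rw [map_smul, h1], by rw [map_smul]⟩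

theorem Ex2.neg (hu : Ex2 V u) : Ex2 V (-u) := by
  simpa using hu.smul (-1)

theorem Ex2.sub (hu : Ex2 V u) (hv : Ex2 V v) : Ex2 V (u - v) := by
  rw [sub_eq_add_neg]; exact hu.add hv.neg

theorem Ex2.zero : Ex2 V 0 := ⟨0, map_zero _, (map_zero _).symm⟩

theorem Ex2.cj (hu : Ex2 V u) : Ex2 V ((dR V).cj u) := by
  obtain ⟨β, h1, rfl⟩ := hu
  exact ⟨(dR V).cj β, by rw [← (dR_ok V).cjdg, h1], (dR_ok V).cjd β⟩

theorem Is20.uniq {s : Fld V} (hu : Is20 s u) (hv : Is20 s v) : u = v :=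
  ext_F fun e x hx => (hu e x hx).trans (hv e x hx).symm

theorem Is11.uniq {a : Fld V} (hu : Is11 a u) (hv : Is11 a v) : u = v :=
  ext_F fun e x hx => (hu e x hx).trans (hv e x hx).symm

theorem Is11.val {a : Fld V} (hu : Is11 a u) {e : Chart d V.X} {x : V.X} (hx : At e x) :
    vl u e (e x) = f11 (a e (e x)) := hu e x hx

theorem vl_cj (u : Fs V) {e : Chart d V.X} {x : V.X} (hx : At e x) :
    vl ((dR V).cj u) e (e x) = cjv (vl u e (e x)) := (dR_real V).cj u e x hx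

theorem Mark.eq_of {r : ℕ} (m : Mark V r) (hu : Cl2 V u) (hv : Cl2 V v) :
    m.c u = m.c v ↔ Ex2 V (u - v) := by
  rw [← m.ker _ (hu.sub hv), map_sub, sub_eq_zero]

theorem R11.kahler {w : Fld V} (hw : IsKahler w) : R11 w where
  toIsClosedForm := INT.IsKahler.isClosedForm hw
  herm e x hx := (hw.posDef e x hx).isHermitian

end forms

section forms2
variable {r : ℕ} (q : Matrix (Fin r) (Fin r) ℤ)

theorem qC_add_l (x x' y : Fin r → ℂ) : qC q (x + x') y = qC q x y + qC q x' y := by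
  simp only [qC, Pi.add_apply, add_mul, mul_add, Finset.sum_add_distrib]

theorem qC_add_r (x y y' : Fin r → ℂ) : qC q x (y + y') = qC q x y + qC q x y' := by
  simp only [qC, Pi.add_apply, mul_add, Finset.sum_add_distrib]

theorem qC_smul_l (c : ℂ) (x y : Fin r → ℂ) : qC q (c • x) y = c * qC q x y := by
  simp only [qC, Pi.smul_apply, smul_eq_mul, Finset.mul_sum]
  exact Finset.sum_congr rfl fun i _ => Finset.sum_congr rfl fun j _ => by ring

theorem qC_smul_r (c : ℂ) (x y : Fin r → ℂ) : qC q x (c • y) = c * qC q x y := by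
  simp only [qC, Pi.smul_apply, smul_eq_mul, Finset.mul_sum]
  exact Finset.sum_congr rfl fun i _ => Finset.sum_congr rfl fun j _ => by ring

theorem qC_comm (h : qᵀ = q) (x y : Fin r → ℂ) : qC q x y = qC q y x := by
  unfold qC
  rw [Finset.sum_comm]
  refine Finset.sum_congr rfl fun i _ => Finset.sum_congr rfl fun j _ => ?_
  have : q j i = q i j := congrFun (congrFun h i) j
  rw [this]; ring

theorem qC_star (x y : Fin r → ℂ) : qC q (star x) (star y) = star (qC q x y) := by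
  simp only [qC, star_sum, star_mul', Pi.star_apply, star_intCast]

theorem qC_rc (x y : Fin r → ℝ) : qC q (rc x) (rc y) = (qR q x y : ℝ) := by
  simp only [qC, qR, rc]
  push_cast
  rfl

theorem qR_add_l (x x' y : Fin r → ℝ) : qR q (x + x') y = qR q x y + qR q x' y := by
  simp only [qR, Pi.add_apply, add_mul, mul_add, Finset.sum_add_distrib]

theorem qR_add_r (x y y' : Fin r → ℝ) : qR q x (y + y') = qR q x y + qR q x y' := by
  simp only [qR, Pi.add_apply, mul_add, Finset.sum_add_distrib]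

theorem qR_smul_l (c : ℝ) (x y : Fin r → ℝ) : qR q (c • x) y = c * qR q x y := by
  simp only [qR, Pi.smul_apply, smul_eq_mul, Finset.mul_sum]
  exact Finset.sum_congr rfl fun i _ => Finset.sum_congr rfl fun j _ => by ring

theorem qR_smul_r (c : ℝ) (x y : Fin r → ℝ) : qR q x (c • y) = c * qR q x y := by
  simp only [qR, Pi.smul_apply, smul_eq_mul, Finset.mul_sum]
  exact Finset.sum_congr rfl fun i _ => Finset.sum_congr rfl fun j _ => by ring

theorem qR_comm (h : qᵀ = q) (x y : Fin r → ℝ) : qR q x y = qR q y x := by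
  unfold qR
  rw [Finset.sum_comm]
  refine Finset.sum_congr rfl fun i _ => Finset.sum_congr rfl fun j _ => ?_
  have : q j i = q i j := congrFun (congrFun h i) j
  rw [this]; ring

theorem rc_add (x y : Fin r → ℝ) : rc (x + y) = rc x + rc y := by
  funext i; simp [rc]

theorem rc_smul (c : ℝ) (x : Fin r → ℝ) : rc (c • x) = (c : ℂ) • rc x := by
  funext i; simp [rc]

theorem rc_zero : rc (0 : Fin r → ℝ) = 0 := by
  funext i; simp [rc]

theorem rc_inj {x y : Fin r → ℝ} (h : rc x = rc y) : x = y := by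
  funext i
  have := congrFun h i
  simpa [rc] using this

theorem star_rc (x : Fin r → ℝ) : star (rc x) = rc x := by
  funext i; simp [rc]

theorem exists_rc {x : Fin r → ℂ} (h : star x = x) : ∃ y, x = rc y :=
  ⟨fun i => (x i).re, funext fun i => (Complex.conj_eq_iff_re.1 (congrFun h i)).symm⟩

end forms2

end Vale.Agent.P301Z.Lat
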