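import Vale.Agent.P287D.Zc.LatDefs

/-!
# P301, block LAT: statements of the rows and of the output `LAT`
-/

open scoped Manifold ContDiff ComplexOrder Topology Matrix
open Vale.Agent.P272.K Vale.Agent.P299.IX Vale.Agent.P299.IX.Fock
open Vale.Agent.P281Z (Mf)
open Vale.Agent.P281Z.Hg
open Vale.Agent.P301.H599 (IsHolTwoForm IsSymplectic LineBundle IsMetric curvature SameClass
  Smooth ddc)
open Vale.Agent.P272.K.INT (IsClosedForm IsDensity intX)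

noncomputable section

namespace Vale.Agent.P301Z.Lat

/-- the coefficient matrix of the `(2,0)` part -/
def m20 {d : ℕ} (u : Fo d) : Mx d := Matrix.of fun i j => mat u (hl i) (hl j)

/-- the coefficient matrix of the `(1,1)` part -/
def m11 {d : ℕ} (u : Fo d) : Mx d := Matrix.of fun i j => -Complex.I * mat u (hl i) (ah j)

/-- block matrices -/
def bl4 {d : ℕ} (A B C D : Mx d) : Mx (d + d) :=
  Matrix.reindex finSumFinEquiv finSumFinEquiv (Matrix.fromBlocks A B C D)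

/-- `u` has holomorphic degree `k` -/
def Ty {d : ℕ} {V : Mf d} (k : ℕ) (u : Fs V) : Prop :=
  ∀ e x, At e x → pm d k *ᵥ vl u e (e x) = vl u e (e x)

/-- row PWA: two-forms at a point -/
structure PWA : Prop where
  lr_tw : ∀ {a b : ℕ} (J : Matrix (Fin a) (Fin b) ℂ) (B : Mx b), lr J *ᵥ tw B = tw (J * B * Jᵀ)
  tw_add : ∀ {n : ℕ} (B B' : Mx n), tw (B + B') = tw B + tw B'
  tw_smul : ∀ {n : ℕ} (c : ℂ) (B : Mx n), tw (c • B) = c • tw B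
  tw_tr : ∀ {n : ℕ} (B : Mx n), tw Bᵀ = -tw B
  dg_tw : ∀ {n : ℕ} (B : Mx n), dg 2 *ᵥ tw B = tw B
  tw_mat : ∀ {n : ℕ} (u : Fk n), tw (mat u) = dg 2 *ᵥ u
  mat_tw : ∀ {n : ℕ} (B : Mx n), Bᵀ = -B → mat (tw B) = B
  mat_skew : ∀ {n : ℕ} (u : Fk n), (mat u)ᵀ = -mat u
  mat_add : ∀ {n : ℕ} (u v : Fk n), mat (u + v) = mat u + mat v
  mat_smul : ∀ {n : ℕ} (c : ℂ) (u : Fk n), mat (c • u) = c • mat u
  cjv_tw : ∀ {d : ℕ} (B : Mx (d + d)), cjv (tw B) = tw (swm d * B.map star * swm d)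
  f20_tw : ∀ {d : ℕ} (S : Mx d), f20 S = tw (bl4 S 0 0 0)
  f02_tw : ∀ {d : ℕ} (S : Mx d), cjv (f20 S) = tw (bl4 0 0 0 (S.map star))
  f11_tw : ∀ {d : ℕ} (W : Mx d), f11 W = tw (bl4 0 (Complex.I • W) (-(Complex.I • W)ᵀ) 0)
  f20_add : ∀ {d : ℕ} (S S' : Mx d), f20 (S + S') = f20 S + f20 S'
  f20_smul : ∀ {d : ℕ} (c : ℂ) (S : Mx d), f20 (c • S) = c • f20 S
  f11_add : ∀ {d : ℕ} (W W' : Mx d), f11 (W + W') = f11 W + f11 W'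
  f11_smul : ∀ {d : ℕ} (c : ℂ) (W : Mx d), f11 (c • W) = c • f11 W
  f20_sum : ∀ {d : ℕ} (S : Mx d),
    f20 S = ∑ i, ∑ j, (S i j / 2) • (eps (hl i) *ᵥ (eps (hl j) *ᵥ ev ∅))
  dg20 : ∀ {d : ℕ} (S : Mx d), dg 2 *ᵥ f20 S = f20 S
  dg11 : ∀ {d : ℕ} (W : Mx d), dg 2 *ᵥ f11 W = f11 W
  pm20 : ∀ {d : ℕ} (S : Mx d), pm d 2 *ᵥ f20 S = f20 S
  pm11 : ∀ {d : ℕ} (W : Mx d), pm d 1 *ᵥ f11 W = f11 W
  pm02 : ∀ {d : ℕ} (S : Mx d), pm d 0 *ᵥ cjv (f20 S) = cjv (f20 S)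
  inv20 : ∀ {d : ℕ} (u : Fo d), dg 2 *ᵥ u = u → pm d 2 *ᵥ u = f20 (m20 u)
  inv11 : ∀ {d : ℕ} (u : Fo d), dg 2 *ᵥ u = u → pm d 1 *ᵥ u = f11 (m11 u)
  inv02 : ∀ {d : ℕ} (u : Fo d), dg 2 *ᵥ u = u → pm d 0 *ᵥ u = cjv (f20 (m20 (cjv u)))
  split : ∀ {d : ℕ} (u : Fo d), dg 2 *ᵥ u = u → u = pm d 2 *ᵥ u + pm d 1 *ᵥ u + pm d 0 *ᵥ u
  m20_skew : ∀ {d : ℕ} (u : Fo d), (m20 u)ᵀ = -m20 u
  m20_f20 : ∀ {d : ℕ} (S : Mx d), Sᵀ = -S → m20 (f20 S) = S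
  m11_f11 : ∀ {d : ℕ} (W : Mx d), m11 (f11 W) = W
  blk20 : ∀ {d : ℕ} (A A' S : Mx d), lam (blk A A') *ᵥ f20 S = f20 (A * S * Aᵀ)
  blk11 : ∀ {d : ℕ} (A A' W : Mx d), lam (blk A A') *ᵥ f11 W = f11 (A * W * A'ᵀ)
  cjv11 : ∀ {d : ℕ} (W : Mx d), cjv (f11 W) = f11 Wᴴ

/-- row PWB: top powers at a point -/
structure PWB : Prop where
  tc_ne : ∀ d, tc d ≠ 0
  lam : ∀ {d : ℕ} (J : Mx (d + d)) (u : Fo d), pw (lam J *ᵥ u) = J.det * pw u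
  det : ∀ {d : ℕ} (W : Mx d), pw (f11 W) = W.det
  cjv : ∀ {d : ℕ} (u : Fo d), dg 2 *ᵥ u = u → pw (cjv u) = star (pw u)
  smul : ∀ {d : ℕ} (c : ℂ) (u : Fo d), pw (c • u) = c ^ d * pw u
  cont : ∀ {d : ℕ}, Continuous (pw : Fo d → ℂ)
  poly : ∀ {d : ℕ} (u v : Fo d), ∃ P : Polynomial ℂ, P.natDegree ≤ d ∧
    ∀ t : ℂ, pw (u + t • v) = P.eval t
  typ : ∀ {d : ℕ} (S W : Mx d), pw (f20 S + f11 W) = W.det
  hk : ∀ {n : ℕ} (S W : Mx (n + n)) (κ : ℝ), Sᵀ = -S → S.det ≠ 0 → W.PosDef →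
    W * (Sᴴ)⁻¹ * Wᵀ = (κ : ℂ) • S → ∀ x t z : ℂ,
    (κ : ℂ) ^ n * pw (x • f20 S + t • f11 W + z • Vale.Agent.P281Z.Hg.cjv (f20 S)) =
      (x * z + κ * t ^ 2) ^ n * W.det

/-- row PWC: nondegenerate forms at a point -/
structure PWC : Prop where
  ne : ∀ {d : ℕ} (B : Mx (d + d)), Bᵀ = -B → (pw (tw B) ≠ 0 ↔ B.det ≠ 0)
  tame : ∀ {d : ℕ} (S W : Mx d), Sᵀ = -S → W.PosDef → 0 < pw (f11 W + f20 S + cjv (f20 S))
  ss : ∀ {d : ℕ} (S : Mx d), Sᵀ = -S → S.det ≠ 0 → 0 < pw (f20 S + cjv (f20 S))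
  ss0 : ∀ {d : ℕ} (S : Mx d), Sᵀ = -S → S.det = 0 → pw (f20 S + cjv (f20 S)) = 0

/-- row D20: holomorphic two-forms -/
structure D20 : Prop where
  ex : ∀ {d : ℕ} {V : Mf d} {s : Fld V}, IsHolTwoForm s → ∃ u, Is20 s u
  cl : ∀ {d : ℕ} {V : Mf d} {s : Fld V} {u}, V.Kah → IsHolTwoForm s → Is20 s u → Cl2 V u
  of : ∀ {d : ℕ} {V : Mf d} {u : Fs V}, Cl2 V u → Ty 2 u → ∃ s, IsHolTwoForm s ∧ Is20 s u
  zero : ∀ {d : ℕ} {V : Mf d} {s : Fld V} {u}, V.Kah → IsHolTwoForm s → Is20 s u → Ex2 V u →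
    ∀ e x, At e x → s e (e x) = 0

/-- row D11: real closed `(1,1)`-forms -/
structure D11 : Prop where
  ex : ∀ {d : ℕ} {V : Mf d} {a : Fld V}, R11 a → ∃ u, Is11 a u
  cl : ∀ {d : ℕ} {V : Mf d} {a : Fld V} {u}, R11 a → Is11 a u → Cl2 V u ∧ ReF V u
  of : ∀ {d : ℕ} {V : Mf d} {u : Fs V}, Cl2 V u → ReF V u → Ty 1 u → ∃ a, R11 a ∧ Is11 a u
  ddc : ∀ {d : ℕ} {V : Mf d} {f : V.X → ℝ} {u : Fs V}, Smooth (d := d) f → Is11 (ddc f) u →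
    Ex2 V u
  curv : ∀ {d : ℕ} {V : Mf d} {ι : Type} {L : LineBundle d V.X ι} {ρ : ι → V.X → ℝ},
    IsMetric L ρ → R11 (V := V) (curvature L ρ) ∧ ∀ i e x, At e x → x ∈ L.U i →
      curvature L ρ e (e x) = Vale.Agent.P301.H599.ddc (ρ i) e (e x)

/-- row VOL: the integral of the top power -/
structure VOL : Prop where
  dens : ∀ {d : ℕ} {V : Mf d} (u : Fs V), IsDensity (fun e z => (pw (vl u e z)).re) ∧
    IsDensity fun e z => (pw (vl u e z)).im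
  cls : ∀ {d : ℕ} {V : Mf d} {u v : Fs V}, Cl2 V u → Ex2 V v → Vol (u + v) = Vol u
  line : ∀ {d : ℕ} {V : Mf d} (u v : Fs V), ∃ P : Polynomial ℂ, P.natDegree ≤ d ∧
    ∀ t : ℂ, Vol (u + t • v) = P.eval t
  smul : ∀ {d : ℕ} {V : Mf d} (c : ℂ) (u : Fs V), Vol (c • u) = c ^ d * Vol u
  real : ∀ {d : ℕ} {V : Mf d} (u : Fs V) (F : Chart d V.X → Cm d → ℝ),
    (∀ e x, At e x → pw (vl u e (e x)) = F e (e x)) → Vol u = (intX F : ℝ)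
  pos : ∀ {d : ℕ} {V : Mf d} {u : Fs V}, Nonempty V.X →
    (∀ e x, At e x → 0 < pw (vl u e (e x))) → 0 < Vol u
  op : ∀ {d : ℕ} {V : Mf d} {u : Fs V} {W : Module.End ℂ (Fs V)},
    IsOp (fun e z => wg (vl u e z)) W → Vol u = tc d * (dR V).Q (oneF V) ((W ^ d) (oneF V)) ∧
      W (oneF V) = u ∧ (∀ x y, y ∈ ZP x → W y ∈ ZP x) ∧
      (Cl2 V u → (∀ y, (dR V).d (W y) = W ((dR V).d y)) ∧
        ∀ j y, (dR V).dg j y = y → (dR V).dg (j + 2) (W y) = W y)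
  pb : ∀ {d : ℕ} {V V' : Mf d} (φ : V.X ≃ₜ V'.X) {T : Fs V' → Fs V}, Smo d d φ →
    Smo d d φ.symm → Ori d φ → IsPb φ T → ∀ u, Vol (T u) = Vol u
  ori : ∀ {d : ℕ} {V V' : Mf d} {f : V.X → V'.X} {T : Fs V' → Fs V} {u : Fs V'}, Smo d d f →
    IsPb f T → (∀ e x, At e x → 0 < pw (vl u e (e x))) →
    (∀ e x, At e x → 0 < pw (vl (T u) e (e x))) → Ori d f

/-- row HD: Hodge decomposition in degree two with smooth representatives -/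
def HD : Prop := ∀ {d : ℕ} (V : Mf d), V.Kah → SimplyConnectedSpace V.X → ∀ a, Cl2 V a →
  ∃ u b v : Fs V, Cl2 V u ∧ Ty 2 u ∧ Cl2 V b ∧ Ty 1 b ∧ Cl2 V v ∧ Ty 0 v ∧ Ex2 V (a - (u + b + v))

/-- row MARK: markings -/
structure MARK : Prop where
  ex : ∀ {d : ℕ} (V : Mf d), V.Kah → ∃ r, Nonempty (Mark V r)
  pb : ∀ {d d' : ℕ} {V : Mf d} {V' : Mf d'} {f : V.X → V'.X} {T : Fs V' → Fs V}, Smo d d' f →
    IsPb f T → ∀ u, (Cl2 V' u → Cl2 V (T u)) ∧ (Ex2 V' u → Ex2 V (T u)) ∧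
      (IntF V' u → IntF V (T u))
  tr : ∀ {d r : ℕ} {V V' : Mf d} (m : Mark V' r) (φ : V.X ≃ₜ V'.X), Smo d d φ → Smo d d φ.symm →
    ∃ m' : Mark V r, ∀ T : Fs V' → Fs V, IsPb φ T → ∀ u, m'.c (T u) = m.c u
  close : ∀ {d' : ℕ} (V' : Mf d'), V'.Kah → ∃ ε : ℝ, 0 < ε ∧ ∀ {d : ℕ} (V : Mf d), V.Kah →
    ∀ (f g : V.X → V'.X) (T T' : Fs V' → Fs V), Smo d d' f → Smo d d' g → IsPb f T → IsPb g T' →
    (∀ x, (ms V').dist (f x) (g x) < ε) → ∀ u, Cl2 V' u → Ex2 V (T u - T' u)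
  htpy : ∀ {d d' : ℕ} {V : Mf d} {V' : Mf d'}, V.Kah → V'.Kah → ∀ {P : Type} [TopologicalSpace P]
    [PreconnectedSpace P] (H : P → V.X → V'.X) (T : P → Fs V' → Fs V),
    Continuous (fun q : P × V.X => H q.1 q.2) → (∀ p, Smo d d' (H p)) → (∀ p, IsPb (H p) (T p)) →
    ∀ u, Cl2 V' u → ∀ p p', Ex2 V (T p u - T p' u)

/-- row CUP: the zigzag is multiplicative -/
def CUP : Prop := ∀ (S : Type) [AddCommGroup S] [Module ℂ S] (D : ℕ) (X : Cx S D) (M : Type)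
  [MetricSpace M] (E : LC M X) (T : Module.End ℂ S), (∀ (c : ℂ) x, c • E.one ∈ E.Z x → c = 0) →
  (∀ y, X.d (T y) = T (X.d y)) → (∀ x y, y ∈ E.Z x → T y ∈ E.Z x) →
  (∀ j y, X.dg j y = y → X.dg (j + 2) (T y) = T y) → E.IsInt 2 (T E.one) →
  ∀ m y, E.IsInt m y → E.IsInt (m + 2) (T y)

/-- row INTV: top powers of integral classes have integrals in a cyclic group -/
def INTV : Prop := ∀ {d : ℕ} (V : Mf d), V.Kah → PreconnectedSpace V.X → ∃ lam : ℂ,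
  ∀ u, Cl2 V u → IntF V u → ∃ k : ℤ, Vol u = k * lam

/-- the real bilinear form of a real matrix -/
def qr0 {r : ℕ} (q : Matrix (Fin r) (Fin r) ℝ) (x y : Fin r → ℝ) : ℝ :=
  ∑ i, ∑ j, q i j * (x i * y j)

/-- row RAT: the form is rational up to one factor -/
def RAT : Prop := ∀ (r n : ℕ) (q : Matrix (Fin r) (Fin r) ℝ) (C : ℝ) (lam : ℂ), 0 < n → qᵀ = q →
  C ≠ 0 → (∀ k : Fin r → ℤ, ∃ j : ℤ, ((C * qr0 q (zr k) (zr k) ^ n : ℝ) : ℂ) = j * lam) →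
  ∃ (t : ℝ) (q' : Matrix (Fin r) (Fin r) ℤ), 0 < t ∧ ∀ i j, (q' i j : ℝ) = t * q i j

/-- row FUJ: the Beauville form and the Fujiki relation -/
def FUJ : Prop := ∀ {n r : ℕ} (V : Mf (n + n)) (m : Mark V r) (w s : Fld V), 0 < n →
  SimplyConnectedSpace V.X → IsSymplectic (n + n) V.X w s →
  ∃ B : BB n r, Fuj B m ∧ ∀ u, Is11 w u → ∀ k, m.c u = rc k → 0 < qR B.q k k

/-- row SIG: linear algebra of the signature -/
def SIG : Prop := ∀ {n r : ℕ} (B : BB n r) (a : Fin 3 → Fin r → ℝ),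
  (∀ i, 0 < qR B.q (a i) (a i)) → (∀ i j, i ≠ j → qR B.q (a i) (a j) = 0) →
  ∀ v, (∀ i, qR B.q v (a i) = 0) → v ≠ 0 → qR B.q v v < 0

/-- row REL: consequences of the Fujiki relation -/
structure REL : Prop where
  per : ∀ {n r : ℕ} {B : BB n r} (Y : MK B) {s}, Y.V.Kah → IsHolTwoForm s → ∃ p, Y.Per s p
  c11 : ∀ {n r : ℕ} {B : BB n r} (Y : MK B) {a}, R11 a → ∃ v, Y.C11 a v
  same : ∀ {n r : ℕ} {B : BB n r} {Y : MK B} {a a' v}, Y.C11 a v → R11 a' → SameClass a' a →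
    Y.C11 a' v
  add : ∀ {n r : ℕ} {B : BB n r} {Y : MK B} {a a' v v'} (x y : ℝ), Y.C11 a v → Y.C11 a' v' →
    Y.C11 (fun e z => (x : ℂ) • a e z + (y : ℂ) • a' e z) (x • v + y • v')
  vol11 : ∀ {n r : ℕ} {B : BB n r} {Y : MK B} {a v}, Y.C11 a v →
    intX (fun e z => (a e z).det.re) = B.C * qR B.q v v ^ n
  pp : ∀ {n r : ℕ} {B : BB n r} {Y : MK B} {s s' p p'}, Y.Per s p → Y.Per s' p' → qC B.q p p' = 0
  p11 : ∀ {n r : ℕ} {B : BB n r} {Y : MK B} {s p a v}, Y.Per s p → Y.C11 a v →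
    qC B.q p (rc v) = 0
  nn : ∀ {n r : ℕ} {B : BB n r} {Y : MK B} {s p w k}, Y.Per s p → Y.Kc w k → 0 < qR B.q k k →
    0 ≤ qC B.q p (star p)
  ppb : ∀ {n r : ℕ} {B : BB n r} {Y : MK B} {s w p k}, Y.HK s w p k → 0 < qC B.q p (star p)
  neg : ∀ {n r : ℕ} {B : BB n r} {Y : MK B} {s w p k}, Y.HK s w p k → ∀ v,
    qC B.q p (rc v) = 0 → qR B.q v k = 0 → v ≠ 0 → qR B.q v v < 0
  sym : ∀ {n r : ℕ} {B : BB n r} {Y : MK B} {s w p k}, Y.HK s w p k →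
    IsSymplectic (n + n) Y.V.X w s
  kpos : ∀ {n r : ℕ} {B : BB n r} {Y : MK B} {s w p k w' k'}, Y.HK s w p k → Y.Kc w' k' →
    0 < qR B.q k' k' ∧ 0 < qR B.q k k'

/-- row HR: primitive classes, the `∂∂̄`-lemma, the volume of the symplectic form -/
structure HR : Prop where
  prim : ∀ {n r : ℕ} {B : BB n r} {Y : MK B} {w k a v}, Y.Kc w k → 0 < qR B.q k k → Y.C11 a v →
    qR B.q v k = 0 → qR B.q v v ≤ 0 ∧ (qR B.q v v = 0 → SameClass a fun _ _ => 0)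
  vols : ∀ {n r : ℕ} {B : BB n r} {Y : MK B} {s w p k}, Y.HK s w p k →
    intX (fun e z => ‖(s e z).det‖) = B.C * (2 * (qC B.q p (star p)).re) ^ n

/-- row LEF: the Lefschetz theorem on `(1,1)`-classes -/
def LEF : Prop := ∀ {d : ℕ} (V : Mf d) (a : Fld V) (u : Fs V), R11 a → Is11 a u →
  IntF V (((2 * Real.pi : ℝ) : ℂ)⁻¹ • u) →
  ∃ (L : LineBundle d V.X V.X) (ρ : V.X → V.X → ℝ), IsMetric L ρ ∧
    ∀ e x, At e x → curvature L ρ e (e x) = a e (e x)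

/-- row C1I: the first Chern class is integral -/
def C1I : Prop := ∀ {d : ℕ} (V : Mf d) {ι : Type} (L : LineBundle d V.X ι) (ρ : ι → V.X → ℝ)
  (u : Fs V), IsMetric L ρ → Is11 (curvature L ρ) u → IntF V (((2 * Real.pi : ℝ) : ℂ)⁻¹ • u)

/-- row IHS: a marked Kähler manifold with vanishing first Chern class is hyperkähler -/
def IHS : Prop := ∀ {n r : ℕ} {B : BB n r} (Y : MK B) {w k} (φ : Chart (n + n) Y.V.X →
  Cm (n + n) → ℝ), Y.Kc w k → 0 < qR B.q k k → IsCanonicalMetric φ →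
  Y.C11 (fun e z => cHess (φ e) z) 0 → ∃ s p, Y.HK s w p k

/-- **the output of the block** -/
structure LAT : Prop where
  pwa : PWA
  pwb : PWB
  pwc : PWC
  d20 : D20
  d11 : D11
  vol : VOL
  hdec : HD
  mark : MARK
  sig : SIG
  rel : REL
  hr : HR
  ihs : IHS
  even : ∀ {d : ℕ} (V : Mf d) (w s : Fld V), Nonempty V.X → IsSymplectic d V.X w s →
    ∃ n, d = n + n
  ex : ∀ {n : ℕ} (V : Mf (n + n)) (sc : SimplyConnectedSpace V.X) (w s : Fld V), 0 < n →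
    IsSymplectic (n + n) V.X w s → ∃ (r : ℕ) (B : BB n r) (m : Mark V r) (h : Fuj B m)
      (p : Fin r → ℂ) (k : Fin r → ℝ), MK.HK ⟨V, sc, m, h⟩ s w p k
  tr : ∀ {n r : ℕ} {B : BB n r} (Y : MK B) (V : Mf (n + n)) (φ : V.X ≃ₜ Y.V.X),
    Smo (n + n) (n + n) φ → Smo (n + n) (n + n) φ.symm → Ori (n + n) φ →
    ∃ (sc : SimplyConnectedSpace V.X) (m : Mark V r) (h : Fuj B m), MK.Mor ⟨V, sc, m, h⟩ Y φ
  hd : ∀ {n r : ℕ} {B : BB n r} {Y : MK B} {s w p k}, Y.HK s w p k → ∀ v,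
    qC B.q p (rc v) = 0 → ∃ a, Y.C11 a v
  ddc : ∀ {n r : ℕ} {B : BB n r} {Y : MK B} {w k a a' v}, Y.Kc w k → 0 < qR B.q k k →
    Y.C11 a v → Y.C11 a' v → SameClass a a'
  lef : ∀ {n r : ℕ} {B : BB n r} {Y : MK B} {a} (l : Fin r → ℤ),
    Y.C11 a ((2 * Real.pi) • zr l) →
    ∃ (L : LineBundle (n + n) Y.V.X Y.V.X) (ρ : Y.V.X → Y.V.X → ℝ), Y.C1 L ρ l ∧
      ∀ e x, At e x → curvature L ρ e (e x) = a e (e x)
  c1 : ∀ {n r : ℕ} {B : BB n r} (Y : MK B) {ι : Type} (L : LineBundle (n + n) Y.V.X ι)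
    (ρ : ι → Y.V.X → ℝ), IsMetric L ρ → ∃ l, Y.C1 L ρ l
  iso : ∀ {n r : ℕ} {B : BB n r} {Y : MK B} {ι : Type} {L : LineBundle (n + n) Y.V.X ι} {ρ l},
    Y.C1 L ρ l → (Isotropic L ρ ↔ qR B.q (zr l) (zr l) = 0)
  l0 : ∀ {n r : ℕ} {B : BB n r} {Y : MK B} {w k} {ι : Type} {L : LineBundle (n + n) Y.V.X ι}
    {ρ l}, Y.Kc w k → 0 < qR B.q k k → Y.C1 L ρ l →
    (l = 0 ↔ SameClass (curvature L ρ) fun _ _ => 0)
  nef : ∀ {n r : ℕ} {B : BB n r} {Y : MK B} {s w p k} {ι : Type}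
    {L : LineBundle (n + n) Y.V.X ι} {ρ l}, Y.HK s w p k → Y.C1 L ρ l → Nef w L ρ → l ≠ 0 →
    0 < qR B.q (zr l) k

end Vale.Agent.P301Z.Lat
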